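import Vale.Agent.P254Z.Row.Defs

/-!
# P254: the frozen budget, the four classes of multipliers, and the glue to `StmtCert`
-/

namespace Vale.Agent.P254Z.Cert

open Vale.Agent.P254.SF Vale.Agent.P254Z.Row

/-- the budget -/
noncomputable def bud : Bud where
  del := fun _ => 3 / 20
  s2 := fun _ => 40
  B3 := fun z => 6 / b1 z
  B3t := fun _ => 0
  Bt := fun z => 8 / b1 z
  ep := 1 / 500

/-- class A, `0 ≤ g ≤ 5 / 2` -/
noncomputable def muA (g : ℝ) : Mu where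
  y1 := 1 - 4 / 25 * (g - 1)
  y2 := 0
  l := 119 / 200
  al := 4 / 25 * (g - 1)
  ka := -(1 / 100) * (g - 1) ^ 2
  F0 := 0
  F1 := 0
  k1 := 11 / 500 * (g - 1) ^ 2
  k2 := 0
  cp := 41 / 1000 * (g - 1)
  cm := 0
  t := 233 / 1000 * (1 - 4 / 25 * (g - 1))
  r := -(87 / 1000) * (g - 1)
  om := 0
  t0 := 4 / 25 * (g - 1) + 41 / 1000 * (g - 1) ^ 2
  t1 := -(1 / 125) * (g - 1) ^ 2

/-- class B, `5 / 2 ≤ g ≤ 6` -/
noncomputable def muB : Mu where
  y1 := 7 / 10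
  y2 := 0
  l := 137 / 200
  al := 1 / 4
  ka := 39 / 1000
  F0 := 0
  F1 := 0
  k1 := 6 / 125
  k2 := 0
  cp := 8 / 125
  cm := 0
  t := 53 / 500
  r := -(31 / 250)
  om := 0
  t0 := 37 / 100
  t1 := 0

/-- class C, `6 ≤ g ≤ 15` -/
noncomputable def muC : Mu where
  y1 := 39 / 100
  y2 := 0
  l := 697 / 1000
  al := 47 / 100
  ka := 63 / 500
  F0 := 0
  F1 := 0
  k1 := 1 / 5
  k2 := 0
  cp := 1 / 10
  cm := 0
  t := 0
  r := -(117 / 500)
  om := 0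
  t0 := 24 / 25
  t1 := 0

/-- class D, `15 ≤ g` -/
noncomputable def muD : Mu where
  y1 := 0
  y2 := 1 / 5
  l := 371 / 500
  al := 9 / 25
  ka := 87 / 200
  F0 := 0
  F1 := 0
  k1 := 3 / 10
  k2 := 0
  cp := 0
  cm := 0
  t := 0
  r := -(319 / 1000)
  om := 0
  t0 := 81 / 50
  t1 := 0

/-- the pair inequality -/
def StmtPair : Prop := ∀ x y : ℝ,
  6 / b1 x * N3 x y ^ 2 + 8 / b1 x * Nt x y ^ 2 + 40 * N2 x y ^ 2 ≤ rho x y - 1

def StmtQ0A : Prop := ∀ g, 0 ≤ g → g ≤ 5 / 2 → ∀ z u e V,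
  (muA g).t0 * u ^ 2 ≤ Q0 bud (muA g) g z u e V

def StmtQ0B : Prop := ∀ g, 5 / 2 ≤ g → g ≤ 6 → ∀ z u e V, muB.t0 * u ^ 2 ≤ Q0 bud muB g z u e V

def StmtQ0C : Prop := ∀ g, 6 ≤ g → g ≤ 15 → ∀ z u e V, muC.t0 * u ^ 2 ≤ Q0 bud muC g z u e V

def StmtQ0D : Prop := ∀ g, 15 ≤ g → ∀ z u e V, muD.t0 * u ^ 2 ≤ Q0 bud muD g z u e V

def StmtQ1A : Prop := ∀ g, 0 ≤ g → g ≤ 5 / 2 → ∀ z a c e s3 st,
  (muA g).t1 * a ^ 2 ≤ Q1 bud (muA g) z a c e s3 st

def StmtQ1B : Prop := ∀ z a c e s3 st, muB.t1 * a ^ 2 ≤ Q1 bud muB z a c e s3 st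

def StmtQ1C : Prop := ∀ z a c e s3 st, muC.t1 * a ^ 2 ≤ Q1 bud muC z a c e s3 st

def StmtQ1D : Prop := ∀ z a c e s3 st, muD.t1 * a ^ 2 ≤ Q1 bud muD z a c e s3 st

lemma log_one_sub_ge {x : ℝ} (h1 : -(6 / 25) ≤ x) (h2 : x ≤ 6 / 25) :
    -x - 33 / 50 * x ^ 2 ≤ Real.log (1 - x) := by
  have hx : |x| ≤ 6 / 25 := abs_le.2 ⟨h1, h2⟩
  have h := Real.abs_log_sub_add_sum_range_le (x := x) (by linarith) 3
  have h3 := (abs_le.1 h).1
  simp only [Finset.sum_range_succ, Finset.sum_range_zero] at h3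
  have h4 : |x| ^ (3 + 1) / (1 - |x|) ≤ 19 / 250 * x ^ 2 := by
    rw [div_le_iff₀ (by linarith)]
    have e : |x| ^ (3 + 1) = x ^ 2 * x ^ 2 := by
      rw [show (3 + 1 : ℕ) = 2 * 2 by norm_num, pow_mul, sq_abs]; ring
    have hx2 : x ^ 2 ≤ 36 / 625 := by nlinarith
    rw [e]
    nlinarith [sq_nonneg x, mul_nonneg (sq_nonneg x) (sub_nonneg.2 hx)]
  have h5 : x ^ 3 ≤ 6 / 25 * x ^ 2 := by nlinarith [sq_nonneg x]
  norm_num at h3
  nlinarith

lemma le_log_of {a y : ℝ} (n : ℕ) (ha : 0 ≤ a) (hy : 0 < y)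
    (h : 1 ≤ y * ∑ i ∈ Finset.range n, a ^ i / (i.factorial : ℝ)) : -a ≤ Real.log y := by
  rw [Real.le_log_iff_exp_le hy, Real.exp_neg, inv_le_comm₀ (Real.exp_pos a) hy]
  refine le_trans ?_ (Real.sum_le_exp_of_nonneg ha n)
  rw [inv_le_iff_one_le_mul₀' hy]
  exact h

lemma logB : -(9 / 25 : ℝ) ≤ Real.log (7 / 10) :=
  le_log_of 5 (by norm_num) (by norm_num) (by
    simp only [Finset.sum_range_succ, Finset.sum_range_zero, Nat.factorial]; norm_num)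

lemma logC : -(19 / 20 : ℝ) ≤ Real.log (39 / 100) :=
  le_log_of 6 (by norm_num) (by norm_num) (by
    simp only [Finset.sum_range_succ, Finset.sum_range_zero, Nat.factorial]; norm_num)

lemma logD : -(323 / 200 : ℝ) ≤ Real.log (1 / 5) :=
  le_log_of 9 (by norm_num) (by norm_num) (by
    simp only [Finset.sum_range_succ, Finset.sum_range_zero, Nat.factorial]; norm_num)

theorem stmtCert_of (hP : StmtPair) (h0A : StmtQ0A) (h0B : StmtQ0B) (h0C : StmtQ0C)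
    (h0D : StmtQ0D) (h1A : StmtQ1A) (h1B : StmtQ1B) (h1C : StmtQ1C) (h1D : StmtQ1D) :
    StmtCert := by
  refine ⟨bud, ⟨by norm_num [bud], fun _ => by norm_num [bud], fun _ => by norm_num [bud],
    fun x y => ?_⟩, fun g hg => ?_⟩
  · have := hP x y
    simp only [bud]
    linarith
  have hm : min 1 ((g - 1) ^ 2) ≤ 1 := min_le_left _ _
  rcases le_total g (5 / 2) with hA | hA
  · refine ⟨muA g, ⟨?_, le_rfl, ?_, by norm_num [muA], h0A g hg hA, h1A g hg hA, ?_⟩⟩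
    · simp only [muA]; linarith
    · simp only [muA]; linarith
    · have h1 := log_one_sub_ge (x := 4 / 25 * (g - 1)) (by linarith) (by linarith)
      have h2 : min 1 ((g - 1) ^ 2) ≤ (g - 1) ^ 2 := min_le_right _ _
      have h3 : g * (g - 1) ^ 2 ≤ 5 / 2 * (g - 1) ^ 2 :=
        mul_le_mul_of_nonneg_right hA (sq_nonneg _)
      simp only [muA, bud, add_zero]
      nlinarith [sq_nonneg (g - 1)]
  rcases le_total g 6 with hB | hB
  · refine ⟨muB, ⟨by norm_num [muB], le_rfl, by norm_num [muB], by norm_num [muB], h0B g hA hB,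
      h1B, ?_⟩⟩
    have := logB
    simp only [muB, bud, add_zero]
    linarith
  rcases le_total g 15 with hC | hC
  · refine ⟨muC, ⟨by norm_num [muC], le_rfl, by norm_num [muC], by norm_num [muC], h0C g hB hC,
      h1C, ?_⟩⟩
    have := logC
    simp only [muC, bud, add_zero]
    linarith
  · refine ⟨muD, ⟨le_rfl, by norm_num [muD], by norm_num [muD], by norm_num [muD], h0D g hC,
      h1D, ?_⟩⟩
    have := logD
    simp only [muD, bud, zero_add]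
    linarith

end Vale.Agent.P254Z.Cert
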