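import Vale.Agent.P254Z.Cert.PairB

/-!
# P254: the pair inequality
-/

namespace Vale.Agent.P254Z.Cert

open Real Set Vale.Agent.P254.SF Vale.Agent.P254.SF.B

lemma mem_iv {x : ℝ} (a c : ℤ) (h1 : (a : ℝ) / 10000 ≤ x) (h2 : x ≤ (c : ℝ) / 10000) :
    mem x (iv a c) :=
  mem_hull (mem_cst a 10000) (mem_cst c 10000) ((min_le_left _ _).trans (by simpa using h1))
    (le_trans (by simpa using h2) (le_max_right _ _))

lemma mem_bd {x l u : ℝ} (h : l ≤ x ∧ x ≤ u) (a c : ℤ)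
    (hb : (a : ℝ) / 10000 ≤ l ∧ u ≤ (c : ℝ) / 10000) : mem x (iv a c) :=
  mem_iv a c (hb.1.trans h.1) (h.2.trans hb.2)

lemma inv_bd {x c : ℝ} (hc : 0 < c) (h : c⁻¹ ≤ x) : 0 ≤ x⁻¹ ∧ x⁻¹ ≤ c :=
  ⟨(inv_pos.2 ((inv_pos.2 hc).trans_le h)).le, (inv_le_comm₀ ((inv_pos.2 hc).trans_le h) hc).2 h⟩

lemma mul_bd {x y l u m : ℝ} (hl : l ≤ 0) (hu : 0 ≤ u) (h : l ≤ x ∧ x ≤ u) (y0 : 0 ≤ y)
    (y1 : y ≤ m) : m * l ≤ y * x ∧ y * x ≤ m * u := by
  constructor <;> nlinarith [mul_le_mul_of_nonneg_left h.1 y0, mul_le_mul_of_nonneg_left h.2 y0]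

/-- scaled bounds on the right -/
lemma right_bd {t : ℝ} (ht : 16 ≤ t) : (0 ≤ t * b2 t ∧ t * b2 t ≤ 0.018) ∧
    (0 ≤ t * bt t ∧ t * bt t ≤ 0.018) ∧ (-0.028 ≤ t * cp t ∧ t * cp t ≤ 0.038) ∧
    (-0.004 ≤ t * b3 t ∧ t * b3 t ≤ 0.002) := by
  obtain ⟨a1, a0, a2, a3, -, -⟩ := tailR ht
  have t0 : 0 < t := by linarith
  have p2 := mul_pos t0 (b2_pos t)
  have c1 := b1_lt t
  have h1 := mul_bd le_rfl (by norm_num) ⟨p2.le, a2⟩ (b1_pos t).le c1.le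
  have h2 := mul_bd (by norm_num) (by norm_num) a3 (div_pos (b_pos t) t0).le
    ((div_le_iff₀ t0).2 a0)
  have h3 := mul_bd (by norm_num) (by norm_num) a3 (inv_pos.2 t0).le
    (inv_anti₀ (by norm_num) ht)
  have e1 : t * bt t = 2 * (b1 t * (t * b2 t)) := by unfold bt; ring
  have e2 : t * cp t = t * b2 t + b1 t * (t * b2 t) + b t / t * (t ^ 2 * b3 t) := by
    unfold cp; field_simp
  have e3 : t * b3 t = t⁻¹ * (t ^ 2 * b3 t) := by field_simp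
  rw [e1, e2, e3]
  norm_num at *
  refine ⟨⟨p2.le, a2⟩, ⟨?_, ?_⟩, ⟨?_, ?_⟩, ?_, ?_⟩ <;> linarith [h1.1, h1.2, h2.1, h2.2, h3.1, h3.2]

/-- rescaling by `0 ≤ c ≤ s` -/
lemma resc {c s x l u m : ℝ} (hl : l ≤ 0) (hu : 0 ≤ u) (h : l ≤ s * x ∧ s * x ≤ u) (s0 : 0 < s)
    (c0 : 0 ≤ c) (hc : c ≤ m * s) : m * l ≤ c * x ∧ c * x ≤ m * u := by
  have := mul_bd hl hu h (div_nonneg c0 s0.le) ((div_le_iff₀ s0).2 hc)
  rwa [show c / s * (s * x) = c * x by field_simp] at this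

lemma dat_right {t : ℝ} (ht : 16 ≤ t) : 0 < mu t ∧ datR.ok t t := by
  have t0 : 0 < t := by linarith
  obtain ⟨a1, a0, a2, a3, a4, a5⟩ := tailR ht
  obtain ⟨h1, h2, h3, h4⟩ := right_bd ht
  have c1 := b1_lt t
  have p1 := b1_pos t
  have i1 := inv_bd (x := b1 t) (c := 2.05) (by norm_num) (by norm_num; linarith)
  have k1 := mul_bd le_rfl (by norm_num) h1 i1.1 i1.2
  have k2 := mul_bd (by norm_num) (by norm_num) a3 i1.1 i1.2
  have k3 := mul_bd (by norm_num) (by norm_num) a3 p1.le c1.le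
  have k4 := mul_bd (by norm_num) (by norm_num) a4 (inv_pos.2 t0).le
    ((inv_anti₀ (by norm_num) ht).trans_eq (by norm_num : (16 : ℝ)⁻¹ = 0.0625))
  have k5 := mul_bd (by norm_num) (by norm_num) a4 (div_pos (b_pos t) t0).le
    ((div_le_iff₀ t0).2 a0)
  have k6 := mul_bd le_rfl (by norm_num) h1 h1.1 h1.2
  have e1 : t * la t = (b1 t)⁻¹ * (t * b2 t) / 2 := by unfold la; ring
  have l1 : 0 ≤ t * la t ∧ t * la t ≤ 0.02 := by
    rw [e1]; constructor <;> linarith only [k1.1, k1.2]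
  have k7 := mul_bd le_rfl (by norm_num) l1 l1.1 l1.2
  have e2 : t ^ 2 * mu t = t ^ 2 * qq t - 4 * (t * la t * (t * la t)) +
      (b1 t)⁻¹ * (t ^ 2 * b3 t) / 2 := by unfold mu; ring
  have l2 : 0.64 ≤ t ^ 2 * mu t := by rw [e2]; linarith only [k7.2, k2.1, a5]
  have e3 : t ^ 2 * bt2 t = 2 * (t * b2 t * (t * b2 t) + b1 t * (t ^ 2 * b3 t)) := by
    unfold bt2; ring
  have e4 : t ^ 2 * b4 t = t⁻¹ * (t ^ 3 * b4 t) := by field_simp
  have e5 : t ^ 2 * cpp t = t ^ 2 * b3 t + t * b2 t * (t * b2 t) + 2 * (b1 t * (t ^ 2 * b3 t)) +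
      b t / t * (t ^ 3 * b4 t) := by unfold cpp; field_simp
  have i2 := inv_bd (x := t ^ 2 * mu t) (c := 1.6) (by norm_num) (by norm_num; linarith)
  have i3 := inv_bd (x := t ^ 2 * qq t) (c := 1.4) (by norm_num) (by norm_num; linarith)
  have i4 := inv_bd (x := t ^ 2 * qq t * b1 t) (c := 2.9) (by norm_num) (by
    have := mul_le_mul a5 a1 (by norm_num) (le_trans (by norm_num) a5)
    norm_num at this ⊢
    linarith)
  unfold datR
  refine ⟨(mul_pos_iff_of_pos_left (pow_pos t0 2)).1 (by linarith only [l2]),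
    mem_bd h1 0 180 (by norm_num), mem_bd h2 0 180 (by norm_num),
    mem_bd h3 (-280) 380 (by norm_num), mem_bd h4 (-40) 20 (by norm_num),
    mem_bd l1 0 200 (by norm_num), mem_bd a3 (-530) 210 (by norm_num), mem_iv (-600) 300 ?_ ?_,
    mem_iv (-70) 140 ?_ ?_, mem_iv (-1700) 1600 ?_ ?_, mem_bd i2 0 16000 (by norm_num),
    mem_bd i3 0 14000 (by norm_num), mem_bd i4 0 29000 (by norm_num)⟩ <;>
    push_cast
  · linarith only [e3, k6.1, k3.1]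
  · linarith only [e3, k6.2, k3.2]
  · linarith only [e4, k4.1]
  · linarith only [e4, k4.2]
  · linarith only [e5, a3.1, k6.1, k3.1, k5.1]
  · linarith only [e5, a3.2, k6.2, k3.2, k5.2]

lemma rng_right (c m s : ℝ) (hs : 16 ≤ s) (c0 : 0 ≤ c) (hc : c ≤ m * s) :
    (m * 0 ≤ c * b2 s ∧ c * b2 s ≤ m * 0.018) ∧ (m * 0 ≤ c * bt s ∧ c * bt s ≤ m * 0.018) ∧
      (m * -0.028 ≤ c * cp s ∧ c * cp s ≤ m * 0.038) ∧
      (m * -0.004 ≤ c * b3 s ∧ c * b3 s ≤ m * 0.002) := by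
  obtain ⟨h1, h2, h3, h4⟩ := right_bd hs
  have s0 : 0 < s := by linarith
  exact ⟨resc le_rfl (by norm_num) h1 s0 c0 hc, resc le_rfl (by norm_num) h2 s0 c0 hc,
    resc (by norm_num) (by norm_num) h3 s0 c0 hc, resc (by norm_num) (by norm_num) h4 s0 c0 hc⟩

lemma inv_right : Inv 16 rng0 := by
  intro t ht
  have t0 : 0 < t := by linarith
  obtain ⟨h1, h2, h3, h4⟩ := rng_right 1 (1 / 16) t ht zero_le_one (by linarith)
  unfold rng0
  refine ⟨⟨mem_bd h1 0 12 (by norm_num), mem_bd h2 0 12 (by norm_num),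
    mem_bd h3 (-18) 24 (by norm_num), mem_bd h4 (-3) 2 (by norm_num)⟩,
    cond_of t0 (dat_right ht).1 (dat_right ht).2 (fun s hs => ?_) chk_right⟩
  obtain ⟨h1, h2, h3, h4⟩ := rng_right t 1 s (ht.trans hs) t0.le (by linarith)
  unfold rngR
  exact ⟨mem_bd h1 0 180 (by norm_num), mem_bd h2 0 180 (by norm_num),
    mem_bd h3 (-280) 380 (by norm_num), mem_bd h4 (-40) 20 (by norm_num)⟩

lemma dat_left {t : ℝ} (ht : t ≤ -6) : 0 < mu t ∧ datL.ok 1 t := by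
  obtain ⟨a0, a1, a2, ⟨a3, c3⟩, a4, a5, a6⟩ := tailL ht
  have p0 := b_pos t
  have p1 := b1_pos t
  have p2 := b2_pos t
  have h2 : 3 * b2 t ≤ b1 t := by nlinarith
  have l2 : 0 ≤ b2 t ∧ b2 t ≤ 0.0087 := ⟨p2.le, by linarith⟩
  have l3 : -0.00003 ≤ b3 t ∧ b3 t ≤ 0.052 := ⟨by linarith, c3⟩
  have k1 := mul_bd le_rfl (by norm_num) l2 p1.le a1
  have k2 := mul_bd (by norm_num) (by norm_num) l3 p0.le a0
  have k3 := mul_bd (by norm_num) (by norm_num) l3 p1.le a1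
  have k4 := mul_bd (by norm_num) (by norm_num) (abs_le.1 a4) p0.le a0
  have k5 := mul_bd le_rfl (by norm_num) l2 l2.1 l2.2
  have l1 : 0 ≤ la t ∧ la t ≤ 1 / 6 := by
    unfold la
    rw [← div_eq_mul_inv, div_div, div_le_iff₀ (by positivity)]
    exact ⟨by positivity, by linarith⟩
  have k6 := mul_bd le_rfl (by norm_num) l1 l1.1 l1.2
  have k7 : -0.001 ≤ b3 t * (b1 t)⁻¹ := by rwa [← div_eq_mul_inv, le_div_iff₀ p1]
  have l4 : 8.8 ≤ mu t := by unfold mu; linarith [k6.2]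
  have i2 := inv_bd (x := 1 ^ 2 * mu t) (c := 0.12) (by norm_num) (by norm_num; linarith)
  have i3 := inv_bd (x := 1 ^ 2 * qq t) (c := 0.12) (by norm_num) (by norm_num; linarith)
  have i4 := inv_bd (x := 1 ^ 2 * qq t * b1 t) (c := 4.6) (by norm_num) (by norm_num; linarith)
  refine ⟨by linarith, ?_⟩
  constructor <;> dsimp only [datL, bt, cp, bt2, cpp] <;> refine mem_iv _ _ ?_ ?_ <;>
    push_cast <;>
    linarith [l1.1, l1.2, l2.1, l2.2, l3.1, l3.2, k1.1, k1.2, k2.1, k2.2, k3.1, k3.2, k4.1, k4.2,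
      k5.1, k5.2, i2.1, i2.2, i3.1, i3.2, i4.1, i4.2, (abs_le.1 a4).1, (abs_le.1 a4).2]

theorem cond_all (t : ℝ) : Cond t := by
  have h1 := inv_mid inv_right 22 le_rfl
  have h2 := chk_left
  rw [show (16 : ℝ) - (22 : ℕ) = -6 by norm_num] at h1
  generalize rs 22 = R at h1 h2
  rcases le_total (-6) t with h | h
  · exact (h1 t h).2
  refine cond_of one_pos (dat_left h).1 (dat_left h).2 (fun s _ => ?_) h2
  rcases le_total (-6) s with h | h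
  · exact ⟨mem_hull_l _ (h1 s h).1.b2, mem_hull_l _ (h1 s h).1.bt, mem_hull_l _ (h1 s h).1.cp,
      mem_hull_l _ (h1 s h).1.b3⟩
  · exact ⟨mem_hull_r _ (dat_left h).2.b2, mem_hull_r _ (dat_left h).2.bt,
      mem_hull_r _ (dat_left h).2.cp, mem_hull_r _ (dat_left h).2.b3⟩

/-- the pair inequality -/
theorem stmtPair : StmtPair := stmtPair_of cond_all

end Vale.Agent.P254Z.Cert
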