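import Vale.Agent.P254Z.Cert.Glue
import Vale.Agent.P254Z.SF.Cell
import Vale.Agent.P254Z.SF.Sub

/-!
# P254: the pair inequality follows from a one-variable condition; the checker
-/

namespace Vale.Agent.P254Z.Cert

open Real Set Vale.Agent.P254.SF Vale.Agent.P254.SF.B Vale.Agent.P254Z.Row Vale.Agent.P254.S130

/-- `c₁'` -/
noncomputable def cp (t : ℝ) : ℝ := b2 t + b1 t * b2 t + b t * b3 t

/-- `c₁''` -/
noncomputable def cpp (t : ℝ) : ℝ := b3 t + b2 t * b2 t + 2 * (b1 t * b3 t) + b t * b4 t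

/-- `(b'²)'` -/
noncomputable def bt (t : ℝ) : ℝ := 2 * (b1 t * b2 t)

/-- `(b'²)''` -/
noncomputable def bt2 (t : ℝ) : ℝ := 2 * (b2 t * b2 t + b1 t * b3 t)

/-- logarithmic derivative of the weight -/
noncomputable def la (t : ℝ) : ℝ := b2 t * (b1 t)⁻¹ / 2

/-- `q - 2 λ² + λ'` -/
noncomputable def mu (t : ℝ) : ℝ := qq t - 4 * (la t * la t) + b3 t * (b1 t)⁻¹ / 2

/-- the one-variable condition -/
structure Cond (t : ℝ) : Prop where
  mu : 0 < mu t
  c0 : ∀ a2 aT β β' a3, Hul b2 t a2 → Hul bt t aT → Hul cp t β → Hul cp t β' → Hul b3 t a3 →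
    6 / b1 t * FF (b2 t) 0 (la t) (b3 t) (Cert.mu t)⁻¹ a2 0 0 +
      8 / b1 t * FF (bt t) (cp t) (la t) (bt2 t) (Cert.mu t)⁻¹ aT β β' +
      40 * FF (b3 t) 0 0 (b4 t) (qq t)⁻¹ a3 0 0 ≤ qq t
  c1 : ∀ K, 0 ≤ K → K ≤ (b1 t)⁻¹ → ∀ β2 β2' α β β' β3 β3', Hul b2 t β2 → Hul b2 t β2' →
    Hul cp t α → Hul bt t β → Hul bt t β' → Hul b3 t β3 → Hul b3 t β3' →
    6 * K * FF 0 (b2 t) 0 0 (qq t)⁻¹ 0 β2 β2' +
      8 * K * FF (cp t) (bt t) 0 (cpp t) (qq t)⁻¹ α β β' +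
      40 * FF 0 (b3 t) 0 0 (qq t)⁻¹ 0 β3 β3' ≤ qq t

lemma c1_hasDerivAt (t : ℝ) : HasDerivAt c1 (cp t) t :=
  ((b1_hasDerivAt t).add ((b_hasDerivAt t).mul (b2_hasDerivAt t))).congr_deriv (by
    unfold cp; ring)

lemma cp_hasDerivAt (t : ℝ) : HasDerivAt cp (cpp t) t :=
  (((b2_hasDerivAt t).add ((b1_hasDerivAt t).mul (b2_hasDerivAt t))).add
    ((b_hasDerivAt t).mul (b3_hasDerivAt t))).congr_deriv (by unfold cpp; ring)

lemma sq_hasDerivAt (t : ℝ) : HasDerivAt (fun s => b1 s ^ 2) (bt t) t :=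
  ((b1_hasDerivAt t).pow 2).congr_deriv (by unfold bt; simp; ring)

lemma bt_hasDerivAt (t : ℝ) : HasDerivAt bt (bt2 t) t :=
  (((b1_hasDerivAt t).mul (b2_hasDerivAt t)).const_mul 2).congr_deriv (by unfold bt2; ring)

lemma phi_hasDerivAt (t : ℝ) : HasDerivAt phi (phi1 t) t :=
  ((b_hasDerivAt t).mul ((b1_hasDerivAt t).const_add 1)).congr_deriv (by unfold phi1 c1; ring)

/-- a primitive of `b'²` -/
noncomputable def Ib (t : ℝ) : ℝ := ∫ s in (0 : ℝ)..t, b1 s ^ 2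

lemma Ib_hasDerivAt (t : ℝ) : HasDerivAt Ib (b1 t ^ 2) t := by
  have hc : Continuous fun s => b1 s ^ 2 :=
    continuous_iff_continuousAt.2 fun s => (sq_hasDerivAt s).continuousAt
  exact intervalIntegral.integral_hasDerivAt_right (hc.intervalIntegrable _ _)
    (hc.stronglyMeasurableAtFilter _ _) hc.continuousAt

lemma Ic_hasDerivAt (t : ℝ) : HasDerivAt (fun s => phi s - Ib s) (c1 t) t :=
  ((phi_hasDerivAt t).sub (Ib_hasDerivAt t)).congr_deriv (by unfold phi1; ring)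

/-- the weight `√(K / b')` -/
noncomputable def wt (K t : ℝ) : ℝ := √K * exp (-log (b1 t) / 2)

lemma wt_sq {K : ℝ} (hK : 0 ≤ K) (t : ℝ) : wt K t ^ 2 = K / b1 t := by
  rw [wt, mul_pow, sq_sqrt hK, ← exp_nat_mul, div_eq_mul_inv K, ← exp_log (inv_pos.2 (b1_pos t)),
    log_inv]
  congr 2
  push_cast
  ring

lemma wt_hasDerivAt (K t : ℝ) : HasDerivAt (wt K) (-(la t * wt K t)) t := by
  refine (((((b1_hasDerivAt t).log (b1_pos t).ne').neg.div_const 2).exp).const_mul √K).congr_deriv ?_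
  simp only [wt, la, Pi.neg_apply]
  ring

lemma la_hasDerivAt (t : ℝ) : HasDerivAt la (b3 t * (b1 t)⁻¹ / 2 - 2 * (la t * la t)) t := by
  refine (((b2_hasDerivAt t).mul ((b1_hasDerivAt t).inv (b1_pos t).ne')).div_const 2).congr_deriv ?_
  have := (b1_pos t).ne'
  simp only [la, Pi.inv_apply]
  field_simp
  ring

lemma d0 (t : ℝ) : HasDerivAt (fun _ : ℝ => (0 : ℝ)) 0 t := hasDerivAt_const t 0

lemma dc (c t : ℝ) : HasDerivAt (fun _ : ℝ => c) (-(0 * c)) t :=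
  (hasDerivAt_const t c).congr_deriv (by ring)

lemma hul_zero {t a : ℝ} (h : Hul (fun _ => 0) t a) : a = 0 :=
  le_antisymm (h 0 0 fun _ _ => ⟨le_rfl, le_rfl⟩).2 (h 0 0 fun _ _ => ⟨le_rfl, le_rfl⟩).1

/-- the kernels when the first argument is the smaller one -/
noncomputable def k0 : Fin 3 → Ker :=
  ![⟨b, b1, b2, b3, fun _ => 0, fun _ => 0, fun _ => 0, wt 6, la, _, b_hasDerivAt, b1_hasDerivAt,
      b2_hasDerivAt, d0, d0, wt_hasDerivAt 6, la_hasDerivAt⟩,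
    ⟨Ib, fun s => b1 s ^ 2, bt, bt2, fun s => phi s - Ib s, c1, cp, wt 8, la, _, Ib_hasDerivAt,
      sq_hasDerivAt, bt_hasDerivAt, Ic_hasDerivAt, c1_hasDerivAt, wt_hasDerivAt 8, la_hasDerivAt⟩,
    ⟨b1, b2, b3, b4, fun _ => 0, fun _ => 0, fun _ => 0, fun _ => √40, fun _ => 0, fun _ => 0,
      b1_hasDerivAt, b2_hasDerivAt, b3_hasDerivAt, d0, d0, dc _, d0⟩]

/-- the kernels when the first argument `x` is the larger one -/
noncomputable def k1 (x : ℝ) : Fin 3 → Ker :=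
  ![⟨fun _ => 0, fun _ => 0, fun _ => 0, fun _ => 0, b, b1, b2, fun _ => wt 6 x, fun _ => 0,
      fun _ => 0, d0, d0, d0, b_hasDerivAt, b1_hasDerivAt, dc _, d0⟩,
    ⟨fun s => phi s - Ib s, c1, cp, cpp, Ib, fun s => b1 s ^ 2, bt, fun _ => wt 8 x, fun _ => 0,
      fun _ => 0, Ic_hasDerivAt, c1_hasDerivAt, cp_hasDerivAt, Ib_hasDerivAt, sq_hasDerivAt,
      dc _, d0⟩,
    ⟨fun _ => 0, fun _ => 0, fun _ => 0, fun _ => 0, b1, b2, b3, fun _ => √40, fun _ => 0,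
      fun _ => 0, d0, d0, d0, b1_hasDerivAt, b2_hasDerivAt, dc _, d0⟩]

theorem stmtPair_of (H : ∀ t, Cond t) : StmtPair := by
  intro x y
  have s40 : √(40 : ℝ) ^ 2 = 40 := sq_sqrt (by norm_num)
  have w6 := wt_sq (K := 6) (by norm_num)
  have w8 := wt_sq (K := 8) (by norm_num)
  have em : ∀ t, qq t - 2 * la t ^ 2 + (b3 t * (b1 t)⁻¹ / 2 - 2 * (la t * la t)) = mu t :=
    fun t => by unfold mu; ring
  rcases lt_trichotomy x y with h | rfl | h
  · have := pair_of k0 h (fun j t => by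
      fin_cases j <;> simp [k0, Ker.mu, em, (H t).mu, qq_pos]) fun t _ α β β' hα hβ hβ' => by
        have e1 : β 0 = 0 := hul_zero (hβ 0)
        have e2 : β' 0 = 0 := hul_zero (hβ' 0)
        have e3 : β 2 = 0 := hul_zero (hβ 2)
        have e4 : β' 2 = 0 := hul_zero (hβ' 2)
        have := (H t).c0 _ _ _ _ _ (hα 0) (hα 1) (hβ 1) (hβ' 1) (hα 2)
        rw [Fin.sum_univ_three, e1, e2, e3, e4]
        simpa [k0, Ker.mu, em, w6, w8, s40] using this
    rw [Fin.sum_univ_three] at this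
    refine le_trans (le_of_eq ?_) this
    have d := (sub_pos.2 h).ne'
    have d' := (sub_neg.2 h).ne
    simp only [k0, Ker.Q, N3, Nt, N2, dd, if_neg h.ne, w6, w8, s40, Matrix.cons_val_zero,
      Matrix.cons_val_one, Matrix.cons_val]
    rw [← neg_sub y x]
    field_simp
    ring
  · simp [N3, Nt, N2, dd, phi1, rho_self]
  · have := pair_of (k1 x) h (fun j t => by
      fin_cases j <;> simp [k1, Ker.mu, qq_pos]) fun t ht α β β' hα hβ hβ' => by
        have e1 : α 0 = 0 := hul_zero (hα 0)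
        have e3 : α 2 = 0 := hul_zero (hα 2)
        have := (H t).c1 (b1 x)⁻¹ (inv_pos.2 (b1_pos x)).le
          (inv_anti₀ (b1_pos t) (b1_strictMono ht).le) _ _ _ _ _ _ _
          (hβ 0) (hβ' 0) (hα 1) (hβ 1) (hβ' 1) (hβ 2) (hβ' 2)
        rw [Fin.sum_univ_three, e1, e3]
        simpa [k1, Ker.mu, w6, w8, s40, div_eq_mul_inv] using this
    rw [Fin.sum_univ_three, rho_comm] at this
    refine le_trans (le_of_eq ?_) this
    have d := (sub_pos.2 h).ne'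
    simp only [k1, Ker.Q, N3, Nt, N2, dd, if_neg h.ne', w6, w8, s40, Matrix.cons_val_zero,
      Matrix.cons_val_one, Matrix.cons_val]
    field_simp
    ring

/-! ### The checker -/

/-- `FF` on balls -/
def ffB (u1 w1 lam u2 im α β β' : B) : B :=
  sqB (u1 - sc 1 2 (α + β')) + sc 1 2 ((α - β) * (u1 - w1)) +
    sc 1 4 (sqB (lam * (sc 4 1 u1 - α - sc 2 1 β' - β) - u2) * im)

lemma mem_ffB {u1 w1 lam u2 im α β β' : ℝ} {U1 W1 L U2 I A C C' : B} (h1 : mem u1 U1)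
    (h2 : mem w1 W1) (h3 : mem lam L) (h4 : mem u2 U2) (h5 : mem im I) (h6 : mem α A)
    (h7 : mem β C) (h8 : mem β' C') :
    mem (FF u1 w1 lam u2 im α β β') (ffB U1 W1 L U2 I A C C') :=
  mem_congr (mem_add (mem_add (mem_sqB (mem_sub h1 (mem_sc 1 2 (mem_add h6 h8))))
    (mem_sc 1 2 (mem_mul (mem_sub h6 h7) (mem_sub h1 h2))))
    (mem_sc 1 4 (mem_mul (mem_sqB (mem_sub (mem_mul h3 (mem_sub (mem_sub (mem_sub
      (mem_sc 4 1 h1) h6) (mem_sc 2 1 h8)) h7)) h4)) h5))) (by unfold FF; push_cast; ring)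

/-- bound for `FF` by the end points of the range of `α` -/
def vB (u1 w1 lam u2 im A C C' : B) : B :=
  hull (ab (ffB u1 w1 lam u2 im (lo A) C C')) (ab (ffB u1 w1 lam u2 im (hi A) C C'))

lemma FF_le {u1 w1 lam u2 im α β β' l r : ℝ} (him : 0 ≤ im) (hl : l ≤ α) (hr : α ≤ r) :
    FF u1 w1 lam u2 im α β β' ≤
      max |FF u1 w1 lam u2 im l β β'| |FF u1 w1 lam u2 im r β β'| := by
  rcases (hl.trans hr).eq_or_lt with rfl | h
  · rw [le_antisymm hr hl]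
    exact (le_abs_self _).trans (le_max_left _ _)
  have e : (r - l) * FF u1 w1 lam u2 im α β β' = (r - α) * FF u1 w1 lam u2 im l β β' +
      (α - l) * FF u1 w1 lam u2 im r β β' -
      (1 + lam ^ 2 * im) / 4 * ((r - l) * ((r - α) * (α - l))) := by unfold FF; ring
  have h1 := (le_abs_self _).trans (le_max_left |FF u1 w1 lam u2 im l β β'|
    |FF u1 w1 lam u2 im r β β'|)
  have h2 := (le_abs_self _).trans (le_max_right |FF u1 w1 lam u2 im l β β'|
    |FF u1 w1 lam u2 im r β β'|)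
  have h3 : 0 ≤ (1 + lam ^ 2 * im) / 4 * ((r - l) * ((r - α) * (α - l))) := by
    have := sub_nonneg.2 hl
    have := sub_nonneg.2 hr
    have := sub_pos.2 h
    positivity
  refine le_of_mul_le_mul_left ?_ (sub_pos.2 h)
  rw [e]
  nlinarith [mul_le_mul_of_nonneg_left h1 (sub_nonneg.2 hr),
    mul_le_mul_of_nonneg_left h2 (sub_nonneg.2 hl)]

lemma le_vB {u1 w1 lam u2 im α β β' : ℝ} {U1 W1 L U2 I A C C' : B} (h1 : mem u1 U1)
    (h2 : mem w1 W1) (h3 : mem lam L) (h4 : mem u2 U2) (h5 : mem im I) (h6 : mem α A)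
    (h7 : mem β C) (h8 : mem β' C') (him : 0 ≤ im) :
    ∃ v, 0 ≤ v ∧ FF u1 w1 lam u2 im α β β' ≤ v ∧ mem v (vB U1 W1 L U2 I A C C') := by
  by_cases hA : A = bad
  · refine ⟨_, abs_nonneg _, le_abs_self _, ?_⟩
    subst hA
    have : ∀ X : B, ffB U1 W1 L U2 I bad C C' = X → ab X = bad := by
      rintro _ rfl
      cases U1 <;> cases W1 <;> cases C <;> cases C' <;> rfl
    rw [vB, show lo bad = bad from rfl, this _ rfl]
    trivial
  · exact ⟨_, (abs_nonneg _).trans (le_max_left _ _), FF_le him (lo_le h6 hA) (le_hi h6 hA),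
      mem_hull (mem_ab (mem_ffB h1 h2 h3 h4 h5 (mem_val_lo A) h7 h8))
        (mem_ab (mem_ffB h1 h2 h3 h4 h5 (mem_val_hi A) h7 h8)) min_le_max le_rfl⟩

/-- local data, scaled by `c` -/
structure Dat where
  b2 : B
  bt : B
  cp : B
  b3 : B
  la : B
  u3 : B
  ut : B
  b4 : B
  cpp : B
  im : B
  iq : B
  w : B

/-- the data are valid at `t` -/
structure Dat.ok (D : Dat) (c t : ℝ) : Prop where
  b2 : mem (c * P254.SF.b2 t) D.b2
  bt : mem (c * Cert.bt t) D.bt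
  cp : mem (c * Cert.cp t) D.cp
  b3 : mem (c * P254.SF.b3 t) D.b3
  la : mem (c * Cert.la t) D.la
  u3 : mem (c ^ 2 * P254.SF.b3 t) D.u3
  ut : mem (c ^ 2 * bt2 t) D.ut
  b4 : mem (c ^ 2 * P254.SF.b4 t) D.b4
  cpp : mem (c ^ 2 * Cert.cpp t) D.cpp
  im : mem (c ^ 2 * mu t)⁻¹ D.im
  iq : mem (c ^ 2 * qq t)⁻¹ D.iq
  w : mem (c ^ 2 * qq t * b1 t)⁻¹ D.w

/-- ranges -/
structure Rng where
  b2 : B
  bt : B
  cp : B
  b3 : B

/-- the ranges are valid at `s` -/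
structure Rng.ok (R : Rng) (c s : ℝ) : Prop where
  b2 : mem (c * P254.SF.b2 s) R.b2
  bt : mem (c * Cert.bt s) R.bt
  cp : mem (c * Cert.cp s) R.cp
  b3 : mem (c * P254.SF.b3 s) R.b3

lemma mem_of_hul {f : ℝ → ℝ} {c t a : ℝ} {R : B} (hc : 0 < c) (h : Hul f t a)
    (hR : ∀ s, t ≤ s → mem (c * f s) R) : mem (c * a) R := by
  cases R with
  | bad => trivial
  | mk m r =>
    have hU := mul_pos hc U_pos
    have := h ((m - r) / (c * U)) ((m + r) / (c * U)) fun s hs => by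
      have := abs_le.1 (hR s hs)
      rw [div_le_iff₀ hU, le_div_iff₀ hU]
      constructor <;> linarith [this.1, this.2]
    rw [div_le_iff₀ hU, le_div_iff₀ hU] at this
    simp only [mem, abs_le]
    constructor <;> linarith [this.1, this.2]

/-- the check of the two conditions -/
def chk (D : Dat) (R : Rng) : Bool :=
  B.seq (cst 0 1) fun O =>
  pos (cst 1 1 - (D.w * (sc 6 1 (vB D.b2 O D.la D.u3 D.im R.b2 O O) +
      sc 8 1 (vB D.bt D.cp D.la D.ut D.im R.bt R.cp R.cp)) +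
      D.iq * sc 40 1 (vB D.b3 O O D.b4 D.iq R.b3 O O))) &&
  pos (cst 1 1 - (D.w * (sc 6 1 (ab (ffB O D.b2 O O O O R.b2 R.b2)) +
      sc 8 1 (vB D.cp D.bt O D.cpp D.iq R.cp R.bt R.bt)) +
      D.iq * sc 40 1 (ab (ffB O D.b3 O O O O R.b3 R.b3))))

lemma FF_scale {c : ℝ} (hc : 0 < c) (u1 w1 lam u2 m α β β' : ℝ) :
    FF (c * u1) (c * w1) (c * lam) (c ^ 2 * u2) (c ^ 2 * m)⁻¹ (c * α) (c * β) (c * β') =
      c ^ 2 * FF u1 w1 lam u2 m⁻¹ α β β' := by
  unfold FF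
  rw [mul_inv]
  field_simp

theorem cond_of {D : Dat} {R : Rng} {c t : ℝ} (hc : 0 < c) (hmu : 0 < mu t) (hD : D.ok c t)
    (hR : ∀ s, t ≤ s → R.ok c s) (h : chk D R = true) : Cond t := by
  rw [chk, seq_eq, Bool.and_eq_true] at h
  have q0 := qq_pos t
  have b0 := b1_pos t
  have c2 := pow_pos hc 2
  have O : mem (c * 0) (cst 0 1) := mem_congr mem_zero (by ring)
  have O2 : mem (c ^ 2 * 0) (cst 0 1) := mem_congr mem_zero (by ring)
  have fin : ∀ v1 v2 v3 K : ℝ, 0 ≤ v1 → 0 ≤ v2 → K ≤ (b1 t)⁻¹ →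
      0 < 1 - ((c ^ 2 * qq t * b1 t)⁻¹ * ((6 : ℤ) / (1 : ℕ) * v1 + (8 : ℤ) / (1 : ℕ) * v2) +
        (c ^ 2 * qq t)⁻¹ * ((40 : ℤ) / (1 : ℕ) * v3)) → ∀ F1 F2 F3 : ℝ, 0 ≤ K → c ^ 2 * F1 ≤ v1 →
      c ^ 2 * F2 ≤ v2 → c ^ 2 * F3 ≤ v3 → 6 * K * F1 + 8 * K * F2 + 40 * F3 ≤ qq t := by
    intro v1 v2 v3 K h1 h2 hK h3 F1 F2 F3 K0 k1 k2 k3
    have e : (c ^ 2 * qq t * b1 t)⁻¹ * ((6 : ℤ) / (1 : ℕ) * v1 + (8 : ℤ) / (1 : ℕ) * v2) +
        (c ^ 2 * qq t)⁻¹ * ((40 : ℤ) / (1 : ℕ) * v3) =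
        ((b1 t)⁻¹ * (6 * v1 + 8 * v2) + 40 * v3) / (c ^ 2 * qq t) := by
      push_cast
      field_simp
    rw [e, sub_pos, div_lt_one (by positivity)] at h3
    refine le_of_mul_le_mul_left ?_ c2
    have k4 : K * (6 * v1 + 8 * v2) ≤ (b1 t)⁻¹ * (6 * v1 + 8 * v2) := by gcongr
    have k5 := mul_le_mul_of_nonneg_left k1 K0
    have k6 := mul_le_mul_of_nonneg_left k2 K0
    nlinarith
  refine ⟨hmu, fun a2 aT β β' a3 h1 h2 h3 h4 h5 => ?_,
    fun K K0 hK β2 β2' α β β' β3 β3' h1 h2 h3 h4 h5 h6 h7 => ?_⟩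
  · obtain ⟨v1, p1, l1, m1⟩ := le_vB hD.b2 O hD.la hD.u3 hD.im
      (mem_of_hul hc h1 fun s hs => (hR s hs).b2) O O (by positivity)
    obtain ⟨v2, p2, l2, m2⟩ := le_vB hD.bt hD.cp hD.la hD.ut hD.im
      (mem_of_hul hc h2 fun s hs => (hR s hs).bt) (mem_of_hul hc h3 fun s hs => (hR s hs).cp)
      (mem_of_hul hc h4 fun s hs => (hR s hs).cp) (by positivity)
    obtain ⟨v3, -, l3, m3⟩ := le_vB hD.b3 O O hD.b4 hD.iq
      (mem_of_hul hc h5 fun s hs => (hR s hs).b3) O O (by positivity)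
    rw [FF_scale hc] at l1 l2 l3
    have := fin v1 v2 v3 _ p1 p2 le_rfl (pos_of_mem (mem_sub mem_one (mem_add
      (mem_mul hD.w (mem_add (mem_sc 6 1 m1) (mem_sc 8 1 m2))) (mem_mul hD.iq (mem_sc 40 1 m3))))
      h.1) _ _ _ (by positivity) l1 l2 l3
    simpa only [div_eq_mul_inv] using this
  · have m1 := mem_ab (mem_ffB O hD.b2 O O2 mem_zero O
      (mem_of_hul hc h1 fun s hs => (hR s hs).b2) (mem_of_hul hc h2 fun s hs => (hR s hs).b2))
    obtain ⟨v2, p2, l2, m2⟩ := le_vB hD.cp hD.bt O hD.cpp hD.iq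
      (mem_of_hul hc h3 fun s hs => (hR s hs).cp) (mem_of_hul hc h4 fun s hs => (hR s hs).bt)
      (mem_of_hul hc h5 fun s hs => (hR s hs).bt) (by positivity)
    have m3 := mem_ab (mem_ffB O hD.b3 O O2 mem_zero O
      (mem_of_hul hc h6 fun s hs => (hR s hs).b3) (mem_of_hul hc h7 fun s hs => (hR s hs).b3))
    rw [FF_scale hc] at l2
    refine fin _ v2 _ K (abs_nonneg _) p2 hK (pos_of_mem (mem_sub mem_one (mem_add
      (mem_mul hD.w (mem_add (mem_sc 6 1 m1) (mem_sc 8 1 m2))) (mem_mul hD.iq (mem_sc 40 1 m3))))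
      h.2) _ _ _ K0 (le_trans (le_of_eq ?_) (le_abs_self _)) l2
      (le_trans (le_of_eq ?_) (le_abs_self _)) <;> unfold FF <;> ring

/-- one cell -/
def step (X : Box) (R : Rng) (k : Rng → Bool) : Bool :=
  match X, R with
  | ⟨_, _, K, V, _, _, C0, C1, C2, C3, C4⟩, ⟨r2, rt, rc, r3⟩ =>
    B.seq (inv C1) fun I1 => B.seq (sc 1 4 (K * K) + sc 1 2 V) fun Q =>
    B.seq (sc 1 2 (C2 * I1)) fun L => B.seq (C1 * C2) fun P12 => B.seq (C1 * C3) fun P13 =>
    B.seq (C2 * C2) fun P22 => B.seq (sc 2 1 P12) fun BT => B.seq (C2 + P12 + C0 * C3) fun CP =>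
    B.seq (Q - sc 4 1 (L * L) + sc 1 2 (C3 * I1)) fun M => B.seq (inv Q) fun IQ =>
    B.seq (inv M) fun IM => B.seq (IQ * I1) fun W => B.seq (sc 2 1 (P22 + P13)) fun UT =>
    B.seq (C3 + P22 + sc 2 1 P13 + C0 * C4) fun CPP =>
    B.seq (hull r2 C2) fun s2 => B.seq (hull rt BT) fun st => B.seq (hull rc CP) fun sc' =>
    B.seq (hull r3 C3) fun s3 =>
    pos M && chk ⟨C2, BT, CP, C3, L, C3, UT, C4, CPP, IM, IQ, W⟩ ⟨s2, st, sc', s3⟩ &&
      k ⟨s2, st, sc', s3⟩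

/-- the invariant -/
def Inv (x : ℝ) (R : Rng) : Prop := ∀ t, x ≤ t → R.ok 1 t ∧ Cond t

lemma mem_hull_l {x : ℝ} {a : B} (c : B) (h : mem x a) : mem x (hull a c) := by
  cases c with
  | bad => cases a <;> trivial
  | mk m r =>
    exact mem_hull (y := m / U) h (by simp [mem, div_mul_cancel₀ _ U_pos.ne']) (min_le_left _ _)
      (le_max_left _ _)

lemma mem_hull_r {x : ℝ} {c : B} (a : B) (h : mem x c) : mem x (hull a c) := by
  cases a with
  | bad => trivial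
  | mk m r =>
    exact mem_hull (x := m / U) (by simp [mem, div_mul_cancel₀ _ U_pos.ne']) h (min_le_right _ _)
      (le_max_right _ _)

theorem step_ok {X : Box} {R : Rng} {k : Rng → Bool} {x x' : ℝ} (hR : Inv x R)
    (hX : ∀ t, x' ≤ t → t ≤ x → X.ok t) (h : step X R k = true) :
    ∃ R', Inv x' R' ∧ k R' = true := by
  obtain ⟨Z, H, K, V, H2, E, C0, C1, C2, C3, C4⟩ := X
  obtain ⟨r2, rt, rc, r3⟩ := R
  simp only [step, seq_eq, Bool.and_eq_true] at h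
  obtain ⟨⟨h1, h2⟩, h3⟩ := h
  refine ⟨_, ?_, h3⟩
  have BT : ∀ t, x' ≤ t → t ≤ x → mem (1 * bt t) (sc 2 1 (C1 * C2)) := fun t a c =>
    mem_congr (mem_sc 2 1 (mem_mul (hX t a c).b1 (hX t a c).b2)) (by unfold bt; push_cast; ring)
  have CP : ∀ t, x' ≤ t → t ≤ x → mem (1 * cp t) (C2 + C1 * C2 + C0 * C3) := fun t a c =>
    mem_congr (mem_add (mem_add (hX t a c).b2 (mem_mul (hX t a c).b1 (hX t a c).b2))
      (mem_mul (hX t a c).b (hX t a c).b3)) (by unfold cp; ring)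
  have hR' : ∀ s, x' ≤ s → Rng.ok ⟨hull r2 C2, hull rt (sc 2 1 (C1 * C2)),
      hull rc (C2 + C1 * C2 + C0 * C3), hull r3 C3⟩ 1 s := fun s hs => by
    rcases le_total x s with h | h
    · exact ⟨mem_hull_l _ (hR s h).1.b2, mem_hull_l _ (hR s h).1.bt, mem_hull_l _ (hR s h).1.cp,
        mem_hull_l _ (hR s h).1.b3⟩
    · exact ⟨mem_hull_r _ (mem_congr (hX s hs h).b2 (one_mul _).symm), mem_hull_r _ (BT s hs h),
        mem_hull_r _ (CP s hs h), mem_hull_r _ (mem_congr (hX s hs h).b3 (one_mul _).symm)⟩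
  intro t ht
  refine ⟨hR' t ht, ?_⟩
  rcases le_total x t with h | h
  · exact (hR t h).2
  have o := hX t ht h
  have I1 := mem_inv o.b1
  have Q : mem (qq t) _ := mem_congr (mem_add (mem_sc 1 4 (mem_mul o.k o.k)) (mem_sc 1 2 o.v)) (by
    unfold qq; push_cast; ring)
  have L : mem (la t) _ := mem_congr (mem_sc 1 2 (mem_mul o.b2 I1)) (by
    unfold la; push_cast; ring)
  have M : mem (mu t) _ := mem_congr (mem_add (mem_sub Q (mem_sc 4 1 (mem_mul L L)))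
    (mem_sc 1 2 (mem_mul o.b3 I1))) (by unfold mu; push_cast; ring)
  refine cond_of one_pos (pos_of_mem M h1) ⟨mem_congr o.b2 (by ring), BT t ht h, CP t ht h,
    mem_congr o.b3 (by ring), mem_congr L (by ring), mem_congr o.b3 (by ring),
    mem_congr (mem_sc 2 1 (mem_add (mem_mul o.b2 o.b2) (mem_mul o.b1 o.b3))) (by
      unfold bt2; push_cast; ring), mem_congr o.b4 (by ring),
    mem_congr (mem_add (mem_add (mem_add o.b3 (mem_mul o.b2 o.b2))
      (mem_sc 2 1 (mem_mul o.b1 o.b3))) (mem_mul o.b o.b4)) (by unfold cpp; push_cast; ring),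
    mem_congr (mem_inv M) (by simp), mem_congr (mem_inv Q) (by simp),
    mem_congr (mem_mul (mem_inv Q) I1) (by simp [mul_comm])⟩
    (fun s hs => hR' s (ht.trans hs)) h2

/-- a run of cells of radius `1 / q`, from right to left -/
def run (q : Nat) (k : Rng → Bool) (ws : List Int) : Int → Rng → Bool :=
  List.rec (motive := fun _ => Int → Rng → Bool) (fun _ R => k R)
    (fun w _ ih p R => step (cellAt p q w) R (ih (Int.sub p 2))) ws

theorem run_ok {q : ℕ} (hq : 0 < q) {k : Rng → Bool} (ws : List ℤ) : ∀ (p : ℤ) (R : Rng),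
    Inv ((p + 1) / q) R → run q k ws p R = true →
    ∃ R', Inv ((p + 1 - 2 * ws.length) / q) R' ∧ k R' = true := by
  have q0 : (0 : ℝ) < q := by exact_mod_cast hq
  induction ws with
  | nil => intro p R h1 h2; exact ⟨R, by simpa using h1, h2⟩
  | cons w ws ih =>
    intro p R h1 h2
    obtain ⟨R', h3, h4⟩ := step_ok (x' := (p - 1) / q) h1 (fun t a c => cellAt_ok p q w t (by
      rw [abs_le]
      rw [sub_div] at a
      rw [add_div] at c
      constructor <;> linarith)) h2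
    have e : ((Int.sub p 2 : ℤ) : ℝ) = p - 2 := by
      rw [show Int.sub p 2 = p - 2 from rfl]; push_cast; ring
    obtain ⟨R'', h5, h6⟩ := ih (Int.sub p 2) R' (by
      rwa [e, show (p : ℝ) - 2 + 1 = p - 1 by ring]) h4
    refine ⟨R'', ?_, h6⟩
    rw [e] at h5
    rw [List.length_cons]
    push_cast
    rwa [show (p : ℝ) + 1 - 2 * (ws.length + 1) = p - 2 + 1 - 2 * ws.length by ring]

end Vale.Agent.P254Z.Cert
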