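import Vale.Agent.P254Z.Cert.Q0Chk

/-!
# P254: the statements of level zero follow from the seven endpoint forms
-/

namespace Vale.Agent.P254Z.Cert

open Vale.Agent.P254.SF Vale.Agent.P254Z.Row

lemma twoE0 (z : ℝ) : 2 * E0 z - b z ^ 2 = z * phi z + 1 - c1 z := by
  rw [← h_mul_b, h_eq]
  unfold phi c1 b1 b2
  ring

lemma c1_pos (z : ℝ) : 0 < c1 z := add_pos (b1_pos z) (mul_pos (b_pos z) (b2_pos z))

theorem stmtQ0A_of (hG : ∀ z, GoodAt z) : StmtQ0A := by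
  intro g h0 h1 z u e V
  have a := (hG z).1 pA0 (by simp) ((g - 1) * u) ((1 - 4 / 25 * (g - 1)) * e) V
  have c := (hG z).1 pA1 (by simp) ((g - 1) * u) ((1 - 4 / 25 * (g - 1)) * e) V
  have key : Q0 bud (muA g) g z u e V - (muA g).t0 * u ^ 2 =
      (4 / 25 * (g - 1) * e) ^ 2 * (1 - 4 / 25 * (g - 1)) +
      ((5 / 2 - g) * pA0.form (z * b z) (h z ^ 2) z 1 (b z) (b1 z) (b2 z) (c1 z) ((g - 1) * u)
          ((1 - 4 / 25 * (g - 1)) * e) V +
        g * pA1.form (z * b z) (h z ^ 2) z 1 (b z) (b1 z) (b2 z) (c1 z) ((g - 1) * u)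
          ((1 - 4 / 25 * (g - 1)) * e) V) * (2 / 5) := by
    simp only [Q0, twoE0, bud, muA, Par.form, pA0, pA1, Rt.v, phi]
    push_cast
    ring
  have p1 : 0 ≤ (4 / 25 * (g - 1) * e) ^ 2 * (1 - 4 / 25 * (g - 1)) :=
    mul_nonneg (sq_nonneg _) (by linarith)
  have p2 := mul_nonneg (sub_nonneg.2 h1) a
  have p3 := mul_nonneg h0 c
  linarith

theorem stmtQ0B_of (hG : ∀ z, GoodAt z) : StmtQ0B := by
  intro g h0 h1 z u e V
  have a := (hG z).1 pB0 (by simp) u e V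
  have c := (hG z).1 pB1 (by simp) u e V
  have key : Q0 bud muB g z u e V - muB.t0 * u ^ 2 =
      ((6 - g) * pB0.form (z * b z) (h z ^ 2) z 1 (b z) (b1 z) (b2 z) (c1 z) u e V +
        (g - 5 / 2) * pB1.form (z * b z) (h z ^ 2) z 1 (b z) (b1 z) (b2 z) (c1 z) u e V) *
        (2 / 7) := by
    simp only [Q0, twoE0, bud, muB, Par.form, pB0, pB1, Rt.v, phi]
    push_cast
    ring
  have p2 := mul_nonneg (sub_nonneg.2 h1) a
  have p3 := mul_nonneg (sub_nonneg.2 h0) c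
  linarith

theorem stmtQ0C_of (hG : ∀ z, GoodAt z) : StmtQ0C := by
  intro g h0 h1 z u e V
  have a := (hG z).1 pC0 (by simp) u e V
  have c := (hG z).1 pC1 (by simp) u e V
  have key : Q0 bud muC g z u e V - muC.t0 * u ^ 2 =
      ((15 - g) * pC0.form (z * b z) (h z ^ 2) z 1 (b z) (b1 z) (b2 z) (c1 z) u e V +
        (g - 6) * pC1.form (z * b z) (h z ^ 2) z 1 (b z) (b1 z) (b2 z) (c1 z) u e V) *
        (1 / 9) := by
    simp only [Q0, twoE0, bud, muC, Par.form, pC0, pC1, Rt.v, phi]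
    push_cast
    ring
  have p2 := mul_nonneg (sub_nonneg.2 h1) a
  have p3 := mul_nonneg (sub_nonneg.2 h0) c
  linarith

theorem stmtQ0D_of (hG : ∀ z, GoodAt z) : StmtQ0D := by
  intro g h0 z u e V
  have a := (hG z).1 pD0 (by simp) u 0 V
  have key : Q0 bud muD g z u e V - muD.t0 * u ^ 2 =
      pD0.form (z * b z) (h z ^ 2) z 1 (b z) (b1 z) (b2 z) (c1 z) u 0 V +
        (g - 15) * (c1 z * (5 / 3 - c1 z)) * u ^ 2 * (27 / 125) := by
    simp only [Q0, twoE0, bud, muD, Par.form, pD0, Rt.v, phi]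
    push_cast
    ring
  have p2 := mul_nonneg (mul_nonneg (sub_nonneg.2 h0)
    (mul_nonneg (c1_pos z).le (sub_nonneg.2 (hG z).2))) (sq_nonneg u)
  linarith

end Vale.Agent.P254Z.Cert
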