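import Vale.Agent.P254Z.Cert.Q0Cell
import Vale.Agent.P254Z.Cert.Q0Red

/-!
# P254: the forms of level zero on the whole line
-/

namespace Vale.Agent.P254Z.Cert

open Vale.Agent.P254.SF Vale.Agent.P254.SF.B Vale.Agent.P254Z.Row Filter Topology

/-- witnesses of the cells -/
def ws2 : List Int :=
  [3484209452770983439, 3503867988363669353, 3523205451713046782, 3542231912769417797,
  3560956985780285862, 3579389855775590026, 3597539303197815941, 3615413726827398817,
  3633021165140106529, 3650369316220744867, 3667465556346410883, 3684316957342501438,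
  3700930302805644770, 3717312103279559095, 3733468610462461704, 3749405830517972840,
  3765129536555408279, 3780645280339868405, 3795958403287552272, 3811074046797201502,
  3825997161964465407, 3840732518722234705, 3855284714446580370, 3869658182064824001,
  3883857197699427721, 3897885887878798791, 3911748236343733783, 3925448090476058182]

theorem run2 : chkRun 14 113 ws2 = true := by decide +kernel

theorem goodAt_mid' {t : ℝ} (h1 : 8 ≤ t) (h2 : t < 12) : GoodAt t := by
  refine chkRun_ok (by norm_num) ws2 113 run2 t ?_ ?_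
  · norm_num; linarith
  · rw [show ws2.length = 28 from rfl]; norm_num; linarith

/-- an interval with rational ends -/
def iv0 (a : Int) (p : Nat) (c : Int) (q : Nat) : B := hull (cst a p) (cst c q)

lemma mem_iv0 {x : ℝ} (a : ℤ) (p : ℕ) (c : ℤ) (q : ℕ) (h1 : (a : ℝ) / p ≤ x) (h2 : x ≤ (c : ℝ) / q) :
    mem x (iv0 a p c q) :=
  mem_hull (mem_cst a p) (mem_cst c q) ((min_le_left _ _).trans h1) (h2.trans (le_max_right _ _))

lemma box_right {X : Box} {t : ℝ} (H : X.ok t)
    (k : (pos (cst 25 4 - X.b) && pos (X.b1 - cst 243 500)) = true) :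
    b t < 25 / 4 ∧ 243 / 500 < b1 t := by
  rw [Bool.and_eq_true] at k
  have k1 := pos_of_mem (mem_sub (mem_cst 25 4) H.b) k.1
  have k2 := pos_of_mem (mem_sub H.b1 (mem_cst 243 500)) k.2
  push_cast at k1 k2
  constructor <;> linarith

lemma at_right : b 12 < 25 / 4 ∧ 243 / 500 < b1 12 :=
  box_right (cellAt_ok 120000 10000 3932238248690647170 12 (by norm_num)) (by decide +kernel)

lemma at_left : b1 (-6) < 3 / 100 ∧ h (-6) < 1 / 100 := by
  have H := cellAt_ok (-60000) 10000 (-20752587081785787455) (-6) (by norm_num)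
  have k1 := pos_of_mem (mem_sub (mem_cst 3 100) H.b1) (by decide +kernel)
  have k2 := pos_of_mem (mem_sub (mem_cst 1 100) H.h) (by decide +kernel)
  push_cast at k1 k2
  constructor <;> linarith

theorem chk_right0 : chkAll (iv0 1 2 25 48) (iv0 1 1 21025 20736) (iv0 0 1 1 12) (iv0 0 1 1 12)
    (iv0 1 2 25 48) (iv0 243 500 1 2) (iv0 0 1 1 288) (iv0 243 500 47 90) = true := by
  decide +kernel

theorem chk_left0 : chkAll (iv0 (-1) 1 0 1) (iv0 0 1 1 1000) (cst (-6) 1) (cst 1 1) (iv0 0 1 1 6)
    (iv0 0 1 3 100) (iv0 0 1 1 100) (iv0 0 1 1 30) = true := by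
  decide +kernel

theorem goodAt_right {z : ℝ} (hz : 12 ≤ z) : GoodAt z := by
  have z0 : 0 < z := by linarith
  have k0 := kap_pos z
  have k1 := m2_pos z
  have b0 := b_pos z
  have c0 := b1_lt z
  have c2 : 243 / 500 < b1 z := at_right.2.trans_le (b1_strictMono.monotone hz)
  have d0 := b2_pos z
  have e1 : z / 2 ≤ b z := by
    have := c0
    unfold b1 at this
    nlinarith
  have e2 : b z ≤ z / 2 + 1 / 4 := by
    have := (strictAnti_of_hasDerivAt_neg (f := fun t => b t - t / 2) (f' := fun t => b1 t - 1 / 2)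
      (fun t => (b_hasDerivAt t).sub ((hasDerivAt_id t).div_const 2))
      fun t => sub_neg.2 (b1_lt t)).antitone hz
    linarith [at_right.1]
  have e3 : z ^ 2 * b2 z ≤ 1 / 2 := by
    have r0 := rr_mul 0 z
    have r1 := (lt_div_iff₀ z0).1 (rr_lt 1 z0)
    have r2 := rr_pos 1 z
    rw [rr_zero] at r0
    norm_num at r0 r1
    have r3 : z ^ 2 * b2 z = z * kap z * (rr 1 z * z * b z - z) := by
      unfold b2
      rw [show 1 - z * kap z = kap z * rr 1 z by linarith]
      ring
    have r4 : rr 1 z * z * b z - z ≤ 1 / 2 := by nlinarith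
    rw [r3]
    nlinarith [mul_pos z0 k0]
  have e4 : b2 z ≤ 1 / 288 := by nlinarith [mul_nonneg d0.le (show 0 ≤ z ^ 2 - 144 by nlinarith)]
  have e5 : b z * b2 z ≤ 1 / 45 := by
    have : z * b2 z ≤ 1 / 24 := by nlinarith
    nlinarith
  have e6 : 1 ≤ h z / z := (one_le_div z0).2 (lt_h z).le
  have e7 : h z / z ≤ 145 / 144 := by
    rw [div_le_iff₀ z0, h_eq]
    nlinarith
  have m1 : mem (b z / z) (iv0 1 2 25 48) := mem_iv0 _ _ _ _
    (by rw [le_div_iff₀ z0]; push_cast; linarith) (by rw [div_le_iff₀ z0]; push_cast; linarith)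
  have m2 : mem (1 / z) (iv0 0 1 1 12) := mem_iv0 _ _ _ _ (by simpa using z0.le)
    (by push_cast; exact one_div_le_one_div_of_le (by norm_num) hz)
  have G := chkAll_ok m1 (mem_iv0 (x := (h z / z) ^ 2) 1 1 21025 20736 (by push_cast; nlinarith)
    (by push_cast; nlinarith)) m2 m2 m1
    (mem_iv0 (x := b1 z) _ _ _ _ (by push_cast; linarith) (by push_cast; linarith))
    (mem_iv0 (x := b2 z) _ _ _ _ (by push_cast; linarith) (by push_cast; linarith))
    (mem_iv0 (x := c1 z) _ _ _ _ (by unfold c1; push_cast; nlinarith)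
      (by unfold c1; push_cast; linarith)) chk_right0
  refine ⟨fun c hc U E V => (G.1 c hc (z * U) E V).trans (le_of_eq ?_), G.2⟩
  unfold Par.form
  field_simp

lemma left_b {z : ℝ} (hz : z ≤ -6) : -z * b z ≤ 1 ∧ b z ≤ 1 / 6 ∧ b1 z ≤ 3 / 100 := by
  have k := b1_pos z
  have k2 := h_pos z
  have b0 := b_pos z
  unfold b1 kap at k
  have e : -z * b z ≤ 1 := by nlinarith
  exact ⟨e, by nlinarith, (b1_strictMono.monotone hz).trans at_left.1.le⟩

lemma left_b2 {z : ℝ} (hz : z ≤ -6) : b2 z ≤ 1 / 100 := by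
  have k := pos_of_mono (u := fun x => (1 / 100 - b2 x) * ph x) (z := z)
    (u' := fun x => -b3 x * ph x + (1 / 100 - b2 x) * (-x * ph x))
    (fun x _ => ((b2_hasDerivAt x).const_sub _).mul (ph_hasDerivAt x)) (fun x hx => by
      have := (left_b (hx.le.trans hz)).2.2
      have e : -b3 x * ph x + (1 / 100 - b2 x) * (-x * ph x) =
          (-x / 100 - 2 * b1 x + (1 - va x)) * ph x := by rw [b3_eq]; ring
      rw [e]
      exact mul_pos (by linarith [va_lt_one x]) (ph_pos x)) (by
      refine squeeze_zero_norm' ?_ ph_tendsto_atBot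
      filter_upwards [eventually_le_atBot (-6)] with x hx
      have := left_b hx
      have k1 := b2_eq x
      rw [Real.norm_eq_abs, abs_mul, abs_of_pos (ph_pos x)]
      refine mul_le_of_le_one_left (ph_pos x).le (abs_le.2 ⟨?_, ?_⟩)
      · nlinarith [b1_pos x, h_pos x]
      · linarith [b2_pos x])
  linarith [(mul_pos_iff_of_pos_right (ph_pos z)).1 k]

theorem goodAt_left {z : ℝ} (hz : z ≤ -6) : GoodAt z := by
  obtain ⟨e1, e2, e3⟩ := left_b hz
  have e4 := left_b2 hz
  have b0 := b_pos z
  have d0 := b2_pos z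
  have h0 := h_pos z
  have h1 : h z < 1 / 100 := (h_strictMono.monotone hz).trans_lt at_left.2
  have G := chkAll_ok (mem_iv0 (x := z * b z) _ _ _ _ (by push_cast; linarith)
      (by push_cast; nlinarith))
    (mem_iv0 (x := h z ^ 2) _ _ _ _ (by push_cast; nlinarith) (by push_cast; nlinarith))
    (mem_cst (-6) 1) mem_one
    (mem_iv0 (x := b z) _ _ _ _ (by push_cast; linarith) (by push_cast; linarith))
    (mem_iv0 (x := b1 z) _ _ _ _ (by push_cast; linarith [b1_pos z]) (by push_cast; linarith))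
    (mem_iv0 (x := b2 z) _ _ _ _ (by push_cast; linarith) (by push_cast; linarith))
    (mem_iv0 (x := c1 z) _ _ _ _ (by push_cast; linarith [c1_pos z])
      (by unfold c1; push_cast; nlinarith)) chk_left0
  refine ⟨fun c hc U E V => (G.1 c hc U E V).trans ?_, G.2⟩
  have a4 : c.a4.v ≤ 0 := by
    simp only [List.mem_cons, List.not_mem_nil, or_false] at hc
    rcases hc with rfl | rfl | rfl | rfl | rfl | rfl | rfl <;>
      norm_num [pA0, pA1, pB0, pB1, pC0, pC1, pD0, Rt.v]
  have := mul_nonneg (mul_nonneg_of_nonpos_of_nonpos a4 (show z + 6 ≤ 0 by linarith)) (sq_nonneg U)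
  unfold Par.form
  push_cast
  linarith

theorem goodAt (z : ℝ) : GoodAt z := by
  rcases le_or_gt z (-6) with h1 | h1
  · exact goodAt_left h1
  rcases lt_or_ge z 8 with h2 | h2
  · exact goodAt_mid h1.le h2
  rcases lt_or_ge z 12 with h3 | h3
  · exact goodAt_mid' h2 h3
  exact goodAt_right h3

theorem q0A : StmtQ0A := stmtQ0A_of goodAt

theorem q0B : StmtQ0B := stmtQ0B_of goodAt

theorem q0C : StmtQ0C := stmtQ0C_of goodAt

theorem q0D : StmtQ0D := stmtQ0D_of goodAt

end Vale.Agent.P254Z.Cert
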