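import Vale.Agent.P254Z.Cert.Glue
import Vale.Agent.P254Z.SF.Cell

/-!
# P254: the level zero certificate of class A
-/

namespace Vale.Agent.P254Z.Cert.A

open Vale.Agent.P254.SF Vale.Agent.P254.SF.B Vale.Agent.P254Z.Row

/-- `(al c₁ - cp) / (2 d)` -/
noncomputable def wA (z : ℝ) : ℝ := 2 / 25 * (b1 z + b z * b2 z) - 41 / 2000

/-- the coefficient of `U V` at `g = 5 n / 2` -/
noncomputable def mU (n z : ℝ) : ℝ := b z * (4 / 25 * b1 z - (1853 + 1250 * n) / 50000)

/-- the coefficient of `E V` -/
noncomputable def mE (z : ℝ) : ℝ := 27727 / 50000 - 2 * b1 z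

/-- the coefficient of `E²` after the elimination of `V` -/
noncomputable def aE (n z : ℝ) : ℝ :=
  (336 + 135 * n) / 400 - 50 * n / 3 * (b2 z * b2 z) - 25 / 19 * (mE z * mE z)

/-- the coefficient of `U²` after the elimination of `V` -/
noncomputable def aU (n z : ℝ) : ℝ :=
  wA z * (2 - 50 * n / 3 * wA z) + z * (1 / 100 * b z - 11 / 500) - 25 / 19 * (mU n z * mU n z)

/-- half the coefficient of `U E` after the elimination of `V` -/
noncomputable def aM (n z : ℝ) : ℝ := b2 z * (50 * n / 3 * wA z - 1) - 25 / 19 * (mE z * mU n z)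

/-- the scalar conditions -/
def Ok (n z : ℝ) : Prop := 0 < aE n z ∧ 0 < aU n z * aE n z - aM n z ^ 2

/-- the scaled form, affine in `n = 2 g / 5` -/
noncomputable def S (n z U E V : ℝ) : ℝ :=
  (2 * wA z + z * (1 / 100 * b z - 11 / 500)) * U ^ 2 - 50 * n / 3 * (b2 z * E - wA z * U) ^ 2
    + (336 + 135 * n) / 400 * E ^ 2 - 2 * b2 z * E * U + 19 / 100 * V ^ 2
    + V * (mU n z * U + mE z * E)

lemma S_nonneg {n z : ℝ} (h : Ok n z) (U E V : ℝ) : 0 ≤ S n z U E V := by
  have e : aE n z * S n z U E V = aE n z * (19 / 100 * (V + 50 / 19 * (mU n z * U + mE z * E)) ^ 2)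
      + (aE n z * E + aM n z * U) ^ 2 + (aU n z * aE n z - aM n z ^ 2) * U ^ 2 := by
    simp only [S, aE, aU, aM]; ring
  refine nonneg_of_mul_nonneg_right (a := aE n z) ?_ h.1
  rw [e]
  have := h.1
  have := h.2
  positivity

lemma E0_eq (z : ℝ) :
    2 * E0 z - b z ^ 2 = z * (b z * (1 + b1 z)) + 1 - (b1 z + b z * b2 z) := by
  rw [← h_mul_b, h_eq, b2, b1]; ring

theorem of_ok (h : ∀ z, Ok 0 z ∧ Ok 1 z) : StmtQ0A := by
  intro g h0 h1 z u e V
  obtain ⟨d, rfl⟩ : ∃ d, g = d + 1 := ⟨g - 1, by ring⟩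
  have k0 := mul_nonneg (show 0 ≤ 3 / 5 - 2 / 5 * d by linarith)
    (S_nonneg (h z).1 (d * u) ((1 - 4 / 25 * d) * e) V)
  have k1 := mul_nonneg (show 0 ≤ 2 / 5 + 2 / 5 * d by linarith)
    (S_nonneg (h z).2 (d * u) ((1 - 4 / 25 * d) * e) V)
  have h2 : 0 ≤ (1 - 4 / 25 * d) * (4 / 25 * d * e) ^ 2 := mul_nonneg (by linarith) (sq_nonneg _)
  simp only [Q0, bud, muA, add_sub_cancel_right, E0_eq, phi, c1, S, wA, mU, mE] at k0 k1 ⊢
  linarith

/-! ### The cells -/

/-- the tests on balls -/
def chk (n : Int) (z b b1 b2 : B) : Bool :=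
  B.seq (sc 2 25 (b1 + b * b2) - cst 41 2000) fun w =>
  B.seq (b * (sc 4 25 b1 - cst (1853 + 1250 * n) 50000)) fun mU =>
  B.seq (cst 27727 50000 - sc 2 1 b1) fun mE =>
  B.seq (cst (336 + 135 * n) 400 - sc (50 * n) 3 (b2 * b2) - sc 25 19 (mE * mE)) fun aE =>
  pos aE && pos ((w * (cst 2 1 - sc (50 * n) 3 w) + z * (sc 1 100 b - cst 11 500)
    - sc 25 19 (mU * mU)) * aE - sqB (b2 * (sc (50 * n) 3 w - cst 1 1) - sc 25 19 (mE * mU)))

lemma chk_ok {n : ℤ} {t : ℝ} {Z C C1 C2 : B} (hz : mem t Z) (h0 : mem (b t) C) (h1 : mem (b1 t) C1)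
    (h2 : mem (b2 t) C2) (h : chk n Z C C1 C2 = true) : Ok n t := by
  simp only [chk, seq_eq, Bool.and_eq_true] at h
  have w : mem (wA t) _ := mem_congr (mem_sub (mem_sc 2 25 (mem_add h1 (mem_mul h0 h2)))
    (mem_cst 41 2000)) (by simp [wA])
  have u : mem (mU n t) _ := mem_congr (mem_mul h0 (mem_sub (mem_sc 4 25 h1)
    (mem_cst (1853 + 1250 * n) 50000))) (by simp [mU])
  have e : mem (mE t) _ := mem_congr (mem_sub (mem_cst 27727 50000) (mem_sc 2 1 h1)) (by simp [mE])
  have a : mem (aE n t) _ := mem_congr (mem_sub (mem_sub (mem_cst (336 + 135 * n) 400)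
    (mem_sc (50 * n) 3 (mem_mul h2 h2))) (mem_sc 25 19 (mem_mul e e))) (by simp [aE])
  exact ⟨pos_of_mem a h.1, pos_of_mem (mem_congr (mem_sub (mem_mul (mem_sub (mem_add
    (mem_mul w (mem_sub (mem_cst 2 1) (mem_sc (50 * n) 3 w)))
    (mem_mul hz (mem_sub (mem_sc 1 100 h0) (mem_cst 11 500)))) (mem_sc 25 19 (mem_mul u u))) a)
    (mem_sqB (mem_sub (mem_mul h2 (mem_sub (mem_sc (50 * n) 3 w) (mem_cst 1 1)))
    (mem_sc 25 19 (mem_mul e u))))) (by simp [aU, aM])) h.2⟩

/-- both tests on a box -/
def both : Box → Bool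
  | ⟨z, _, _, _, _, _, b, b1, b2, _, _⟩ => chk 0 z b b1 b2 && chk 1 z b b1 b2

/-- the tests on consecutive cells of radius `1 / 16` -/
def run (ws : List Int) : Int → Bool :=
  List.rec (motive := fun _ => Int → Bool) (fun _ => true)
    (fun w _ ih p => both (cellAt p 16 w) && ih (p + 2)) ws

lemma run_ok : ∀ (ws : List ℤ) (p : ℤ), run ws p = true → ∀ t : ℝ, (p - 1) / 16 < t →
    t ≤ (p - 1 + 2 * ws.length) / 16 → Ok 0 t ∧ Ok 1 t
  | [], p, _, t, h1, h2 => by simp at h2; linarith
  | w :: ws, p, h, t, h1, h2 => by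
    change (both (cellAt p 16 w) && run ws (p + 2)) = true at h
    rw [Bool.and_eq_true] at h
    rcases le_or_gt t ((p + 1) / 16) with k | k
    · have c := cellAt_ok p 16 w t (by rw [abs_le]; push_cast; constructor <;> linarith)
      have h3 := h.1
      generalize cellAt p 16 w = X at c h3
      obtain ⟨z, _, _, _, _, _, b, b1, b2, _, _⟩ := X
      simp only [both, Bool.and_eq_true] at h3
      exact ⟨by exact_mod_cast chk_ok c.z c.b c.b1 c.b2 h3.1,
        by exact_mod_cast chk_ok c.z c.b c.b1 c.b2 h3.2⟩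
    · refine run_ok ws (p + 2) h.2 t (by push_cast; linarith) ?_
      simp only [List.length_cons] at h2
      push_cast at h2 ⊢
      linarith

/-- witnesses for the logarithms -/
def ws : List Int :=
  [
   -29780052535987024403, -28753231820945989007, -27744425504413639957, -26753633586388902246,
   -25780856066869317816, -24826092945849356909, -23889344223316780652, -22970609899244939788,
   -22069889973576749130, -21187184446191915307, -20322493316841079755, -19475816585015785181,
   -18647154249696233043, -17836506308870623175, -17043872758635535893, -16269253591542391534,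
   -15512648793613171042, -14774058339052849211, -14053482181053805585, -13350920236102438840,
   -12666372357702989305, -11999838293225795811, -11351317614422118994, -10720809607752873058,
   -10108313104787582222, -9513826225341090619, -8937345996682950900, -8378867801310348668,
   -7838384594078804371, -7315885818174295906, -6811355940424739795, -6324772522459825283,
   -5856103748516266860, -5405305346787697241, -4972316872304325586, -4557057367314710477,
   -4159420479657172392, -3779269197017383452, -3416430437804345093, -3070689816531057179,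
   -2741786959545109132, -2429411772112380447, -2133202039567778764, -1852742678890968223,
   -1587566846186642595, -1337158962215791897, -1100959561125643916, -878371718720382418,
   -668768696398102829, -471502360063154731, -285911906561330150, -111332451525263152,
   52896907068698737, 207425849136782827, 352886618462853940, 489888940311792672,
   619016091696852368, 740822077389651579, 855829815976463412, 964530209979181408,
   1067381959786933135, 1164811979483056360, 1257216280017668453, 1344961198288905831,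
   1428384866843078469, 1507798836025752218, 1583489777077250567, 1655721209965757300,
   1724735213205547256, 1790754084336953129, 1853981929172638146, 1914606165490378117,
   1972798932790295398, 2028718404273393839, 2082510000575472965, 2134307507225647111,
   2184234099485851419, 2232403279332661154, 2278919730003350066, 2323880093856534648,
   2367373679383551519, 2409483103120202654, 2450284872004004579, 2489849911440917470,
   2528244044018632927, 2565528423453592476, 2601759928002346119, 2636991517216101068,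
   2671272555578104598, 2704649106241825178, 2737164197786668919, 2768858066628635376,
   2799768377466264241, 2829930423907108225, 2859377311205956161, 2888140122851984347,
   2916248072566617182, 2943728643115730516, 2970607713197516434, 2996909673539457893,
   3022657533223105142, 3047873017152448841, 3072576655489479209, 3096787865797929390,
   3120525028562238600, 3143805556682539576, 3166645959487163155, 3189061901751027815,
   3211068258160684928, 3232679163624130264, 3253908059785239987, 3274767738068372096,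
   3295270379547869888, 3315427591909536096, 3335250443746279456, 3354749496407770615,
   3373934833603815579, 3392816088943025262, 3411402471572018244, 3429702790065652940,
   3447725474705477522, 3465478598271562506]

lemma run_ws : run ws (-115) = true := by decide +kernel

lemma mid {t : ℝ} (h1 : -(29 / 4) < t) (h2 : t ≤ 8) : Ok 0 t ∧ Ok 1 t :=
  run_ok ws (-115) run_ws t (by push_cast; linarith) (by
    rw [show ws.length = 122 from rfl]; push_cast; linarith)

/-! ### The tails -/

lemma ok_of {n z e u m : ℝ} (he : 0 < e) (hu : 0 ≤ u) (h1 : e ≤ aE n z) (h2 : u ≤ aU n z)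
    (h3 : |aM n z| ≤ m) (h4 : m ^ 2 < u * e) : Ok n z := by
  refine ⟨he.trans_le h1, sub_pos.2 ?_⟩
  have := mul_le_mul h2 h1 he.le (hu.trans h2)
  have := pow_le_pow_left₀ (abs_nonneg _) h3 2
  rw [sq_abs] at this
  linarith

lemma mul_self_le {x c : ℝ} (h1 : -c ≤ x) (h2 : x ≤ c) : x * x ≤ c ^ 2 := by nlinarith

lemma abs_aM {n z c2 cw ce cu : ℝ} (h2 : |b2 z| ≤ c2) (hw : |50 * n / 3 * wA z - 1| ≤ cw)
    (he : |mE z| ≤ ce) (hu : |mU n z| ≤ cu) : |aM n z| ≤ c2 * cw + 25 / 19 * (ce * cu) := by
  refine (abs_sub _ _).trans ?_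
  rw [abs_mul, abs_mul, abs_mul, abs_of_pos (show (0 : ℝ) < 25 / 19 by norm_num)]
  have := (abs_nonneg _).trans h2
  have := (abs_nonneg _).trans he
  gcongr

lemma left {n z : ℝ} (n0 : 0 ≤ n) (n1 : n ≤ 1) (hz : z ≤ -(29 / 4)) : Ok n z := by
  have p0 := b_pos z
  have p1 := b1_pos z
  have q1 := b1_lt z
  have p2 := b2_pos z
  have ph := h_pos z
  have hk : kap z = h z - z := rfl
  have h1 : b1 z = 1 - kap z * b z := rfl
  have zb : -1 ≤ z * b z := by nlinarith
  have q0 : b z ≤ 4 / 29 := by nlinarith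
  have q2 : b2 z ≤ 4 / 29 := by rw [b2_eq]; nlinarith
  have w0 : -(41 / 2000) ≤ wA z := by unfold wA; nlinarith
  have w1 : wA z ≤ 11 / 500 := by unfold wA; nlinarith
  have e0 : -(5546 / 10000) ≤ mE z := by unfold mE; linarith
  have e1 : mE z ≤ 5546 / 10000 := by unfold mE; linarith
  have u0 : -(9 / 1000) ≤ mU n z := by unfold mU; nlinarith
  have u1 : mU n z ≤ 9 / 1000 := by unfold mU; nlinarith
  have := mul_self_le e0 e1
  have := mul_self_le u0 u1
  have := mul_self_le (show -(4 / 29) ≤ b2 z by linarith) q2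
  have := mul_self_le (show -(11 / 500) ≤ wA z by linarith) w1
  refine ok_of (e := 43 / 100) (u := 1 / 10) (by norm_num) (by norm_num) ?_ ?_
    (abs_aM (c2 := 4 / 29) (cw := 27 / 20) (abs_le.2 ⟨by linarith, q2⟩)
      (abs_le.2 ⟨by nlinarith, by nlinarith⟩) (abs_le.2 ⟨e0, e1⟩) (abs_le.2 ⟨u0, u1⟩)) (by norm_num)
  · unfold aE; nlinarith
  · unfold aU; nlinarith

lemma at_eight : 431 / 100 < b 8 ∧ b 8 < 539 / 125 ∧ 119 / 250 < b1 8 := by
  have c := cellAt_ok 8192 1024 3474256504446866605 8 (by norm_num)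
  have h : (pos ((cellAt 8192 1024 3474256504446866605).b - cst 431 100) &&
      pos (cst 539 125 - (cellAt 8192 1024 3474256504446866605).b) &&
      pos ((cellAt 8192 1024 3474256504446866605).b1 - cst 119 250)) = true := by decide +kernel
  generalize cellAt 8192 1024 _ = X at c h
  simp only [Bool.and_eq_true] at h
  have h1 := pos_of_mem (mem_sub c.b (mem_cst _ _)) h.1.1
  have h2 := pos_of_mem (mem_sub (mem_cst _ _) c.b) h.1.2
  have h3 := pos_of_mem (mem_sub c.b1 (mem_cst _ _)) h.2
  push_cast at h1 h2 h3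
  exact ⟨by linarith, by linarith, by linarith⟩

lemma right_b {z : ℝ} (hz : 8 ≤ z) : 431 / 100 + 119 / 250 * (z - 8) ≤ b z ∧
    b z ≤ z / 2 + 39 / 125 ∧ 119 / 250 ≤ b1 z := by
  obtain ⟨a1, a2, a3⟩ := at_eight
  have p1 : ∀ s, 8 ≤ s → 119 / 250 ≤ b1 s := fun s hs => a3.le.trans (b1_strictMono.monotone hs)
  obtain ⟨s, hs, es⟩ := dd_mvt hz fun s _ => b_hasDerivAt s
  have em := dd_mul b b1 8 z
  rw [es] at em
  exact ⟨by nlinarith [p1 s hs.1], by nlinarith [b1_lt s], p1 z hz⟩

lemma right_b2 {z : ℝ} (hz : 8 ≤ z) : b2 z ≤ 1 / 100 ∧ b z * b2 z ≤ 41 / 1000 := by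
  obtain ⟨l0, q0, l1⟩ := right_b hz
  have pk := kap_pos z
  have h1 : kap z * b z = 1 - b1 z := by rw [b1]; ring
  have r0 := rr_mul 0 z
  have r1 := rr_mul 1 z
  have r2 := rr_pos 1 z
  have r3 := mul_pos r2 (rr_pos 2 z)
  rw [rr_zero] at r0
  norm_num at r0 r1
  have r4 : rr 1 z ≤ 1 / 4 := by nlinarith
  have r5 : rr 1 z * b z - 1 ≤ 39 / 500 := by nlinarith [mul_le_mul_of_nonneg_left q0 r2.le]
  have e2 : b2 z = kap z * (rr 1 z * b z - 1) := by rw [b2]; linear_combination -b z * r0
  have k1 : kap z ≤ 1 / 8 := by nlinarith [mul_pos pk r2]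
  have q1 := b1_lt z
  refine ⟨by rw [e2]; nlinarith, ?_⟩
  rw [e2, ← mul_assoc, mul_comm (b z), h1]
  nlinarith

lemma right {n z : ℝ} (n0 : 0 ≤ n) (n1 : n ≤ 1) (hz : 8 ≤ z) : Ok n z := by
  obtain ⟨l0, q0, l1⟩ := right_b hz
  obtain ⟨q2, q3⟩ := right_b2 hz
  have q1 := b1_lt z
  have p2 := b2_pos z
  have p0 : 431 / 100 ≤ b z := by linarith
  have p3 := mul_pos (b_pos z) p2
  have w0 : 7 / 400 ≤ wA z := by unfold wA; linarith
  have w1 : wA z ≤ 23 / 1000 := by unfold wA; linarith
  have e0 : -(4455 / 10000) ≤ mE z := by unfold mE; linarith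
  have e1 : mE z ≤ 4455 / 10000 := by unfold mE; linarith
  have u0 : -(43 / 1000 * b z) ≤ mU n z := by
    have := mul_le_mul_of_nonneg_left (show -(43 / 1000) ≤
      4 / 25 * b1 z - (1853 + 1250 * n) / 50000 by linarith) (b_pos z).le
    unfold mU; linarith
  have u1 : mU n z ≤ 43 / 1000 * b z := by
    have := mul_le_mul_of_nonneg_left (show 4 / 25 * b1 z - (1853 + 1250 * n) / 50000 ≤ 43 / 1000 by
      linarith) (b_pos z).le
    unfold mU; linarith
  have s1 := mul_self_le e0 e1
  have s2 := mul_self_le u0 u1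
  have s3 := mul_le_mul n1 (mul_self_le (show -(1 / 100) ≤ b2 z by linarith) q2)
    (mul_self_nonneg _) zero_le_one
  have w2 : n * wA z ≤ 1 * (23 / 1000) := mul_le_mul n1 w1 (by linarith) zero_le_one
  have w3 : 0 ≤ n * wA z := mul_nonneg n0 (by linarith)
  have w4 := mul_le_mul w0 (show 8 / 5 ≤ 2 - 50 * n / 3 * wA z by linarith) (by norm_num)
    (by linarith)
  have z1 := mul_le_mul_of_nonneg_right q0 (b_pos z).le
  have sq := mul_le_mul_of_nonneg_right p0 (b_pos z).le
  refine ok_of (e := 57 / 100) (u := 7 / 400 * b z ^ 2 - 21 / 400 * b z + 1 / 20) (by norm_num)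
    (by linarith) ?_ ?_ (abs_aM (c2 := 1 / 100) (cw := 1) (abs_le.2 ⟨by linarith, q2⟩)
      (abs_le.2 ⟨by linarith, by linarith⟩) (abs_le.2 ⟨e0, e1⟩) (abs_le.2 ⟨u0, u1⟩)) (by linarith)
  · unfold aE; linarith
  · unfold aU; linarith

lemma ok_all (z : ℝ) : Ok 0 z ∧ Ok 1 z := by
  rcases le_or_gt z (-(29 / 4)) with h | h
  · exact ⟨left le_rfl zero_le_one h, left zero_le_one le_rfl h⟩
  rcases le_total z 8 with k | k
  · exact mid h k
  · exact ⟨right le_rfl zero_le_one k, right zero_le_one le_rfl k⟩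

end Vale.Agent.P254Z.Cert.A

theorem Vale.Agent.P254Z.Cert.stmtQ0A : Vale.Agent.P254Z.Cert.StmtQ0A :=
  Vale.Agent.P254Z.Cert.A.of_ok Vale.Agent.P254Z.Cert.A.ok_all
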