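import Vale.Agent.P254Z.Cert.Glue
import Vale.Agent.P254Z.SF.Cell

/-!
# P254: the form of level zero for the class C
-/

namespace Vale.Agent.P254Z.Cert.QC

open Vale.Agent.P254.SF Vale.Agent.P254Z.Row Vale.Agent.P254.SF.B

/-- a ternary form is nonnegative (elimination of `V`, then the determinant) -/
lemma form_nonneg {A P L n m s : ℝ} (hL : 0 < L) (hp : 0 < P * L - n ^ 2)
    (hd : (m * L - s * n) ^ 2 ≤ (A * L - s ^ 2) * (P * L - n ^ 2)) (u e V : ℝ) :
    0 ≤ A * u ^ 2 + P * e ^ 2 + L * V ^ 2 + 2 * n * e * V + 2 * m * e * u + 2 * s * u * V := by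
  have h1 : L * (P * L - n ^ 2) *
      (A * u ^ 2 + P * e ^ 2 + L * V ^ 2 + 2 * n * e * V + 2 * m * e * u + 2 * s * u * V)
      = (P * L - n ^ 2) * (L * V + n * e + s * u) ^ 2
        + ((P * L - n ^ 2) * e + (m * L - s * n) * u) ^ 2
        + ((A * L - s ^ 2) * (P * L - n ^ 2) - (m * L - s * n) ^ 2) * u ^ 2 := by ring
  have h2 : 0 ≤ ((A * L - s ^ 2) * (P * L - n ^ 2) - (m * L - s * n) ^ 2) * u ^ 2 :=
    mul_nonneg (sub_nonneg.2 hd) (sq_nonneg u)
  refine nonneg_of_mul_nonneg_right ?_ (mul_pos hL hp)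
  rw [h1]
  positivity

noncomputable def cw (z : ℝ) : ℝ := 47 / 100 * c1 z - 1 / 10

noncomputable def cA (g z : ℝ) : ℝ :=
  -(35 / 100) + (47 * g - 61) / 100 * c1 z + z * b z * (14 / 1000 + 14 / 100 * b1 z)
    - 5 * g / 3 * cw z ^ 2 - 1 / 5 * z

noncomputable def cP (g z : ℝ) : ℝ := 39 / 100 - 1521 * g / 400000 - 1014 * g / 1000 * b2 z ^ 2

noncomputable def cn (z : ℝ) : ℝ := -(39 / 100) * b1 z

noncomputable def cm (g z : ℝ) : ℝ := 39 / 100 * (b2 z * (10 * g / 3 * cw z - (g - 1)))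

noncomputable def cs (z : ℝ) : ℝ := b z * (47 / 200 * b1 z - 28196 / 1000000)

noncomputable def form (g z u e V : ℝ) : ℝ :=
  cA g z * u ^ 2 + cP g z * e ^ 2 + 394 / 1000 * V ^ 2 + 2 * cn z * e * V + 2 * cm g z * e * u
    + 2 * cs z * u * V

lemma E0_id (z : ℝ) : 2 * E0 z - b z ^ 2 = z * phi z + 1 - c1 z := by
  have h1 := h_mul_b z
  have h2 := b2_eq z
  have h3 : b1 z = 1 - (h z - z) * b z := rfl
  unfold phi c1
  rw [← h1, h2]
  linear_combination h3

lemma Q0_eq (g z u e V : ℝ) : Q0 bud muC g z u e V - muC.t0 * u ^ 2 = form g z u e V := by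
  unfold Q0
  rw [E0_id]
  simp only [bud, muC, form, cA, cP, cn, cm, cs, cw, phi]
  ring

/-- the two scalar inequalities -/
def Good (g z : ℝ) : Prop := 0 < cP g z * (394 / 1000) - cn z ^ 2 ∧
  (cm g z * (394 / 1000) - cs z * cn z) ^ 2 ≤
    (cA g z * (394 / 1000) - cs z ^ 2) * (cP g z * (394 / 1000) - cn z ^ 2)

/-- the test on a box -/
def tst (g : Int) (X : Box) : Bool :=
  B.seq (X.b1 + X.b * X.b2) fun c => B.seq (sc 47 100 c - cst 1 10) fun w =>
  B.seq (cst (-35) 100 + sc (47 * g - 61) 100 c + X.z * X.b * (cst 14 1000 + sc 14 100 X.b1)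
    - sc (5 * g) 3 (sqB w) - sc 1 5 X.z) fun A =>
  B.seq (cst 39 100 - cst (1521 * g) 400000 - sc (1014 * g) 1000 (sqB X.b2)) fun P =>
  B.seq (sc (-39) 100 X.b1) fun n =>
  B.seq (sc 39 100 (X.b2 * (sc (10 * g) 3 w - cst (g - 1) 1))) fun m =>
  B.seq (X.b * (sc 47 200 X.b1 - cst 28196 1000000)) fun s =>
  B.seq (sc 394 1000 P - sqB n) fun p =>
  pos p && pos ((sc 394 1000 A - sqB s) * p - sqB (sc 394 1000 m - s * n))

lemma tst_ok {g : ℤ} {X : Box} {z : ℝ} (hX : X.ok z) (h : tst g X = true) : Good g z := by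
  simp only [tst, seq_eq, Bool.and_eq_true] at h
  have c : mem (c1 z) _ := mem_add hX.b1 (mem_mul hX.b hX.b2)
  have w : mem (cw z) _ := mem_congr (mem_sub (mem_sc 47 100 c) (mem_cst 1 10)) (by
    unfold cw; push_cast; ring)
  have A : mem (cA g z) _ := mem_congr (mem_sub (mem_sub (mem_add (mem_add (mem_cst (-35) 100)
    (mem_sc (47 * g - 61) 100 c)) (mem_mul (mem_mul hX.z hX.b) (mem_add (mem_cst 14 1000)
    (mem_sc 14 100 hX.b1)))) (mem_sc (5 * g) 3 (mem_sqB w))) (mem_sc 1 5 hX.z)) (by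
      unfold cA; push_cast; ring)
  have P : mem (cP g z) _ := mem_congr (mem_sub (mem_sub (mem_cst 39 100)
    (mem_cst (1521 * g) 400000)) (mem_sc (1014 * g) 1000 (mem_sqB hX.b2))) (by
      unfold cP; push_cast; ring)
  have n : mem (cn z) _ := mem_congr (mem_sc (-39) 100 hX.b1) (by unfold cn; push_cast; ring)
  have m : mem (cm g z) _ := mem_congr (mem_sc 39 100 (mem_mul hX.b2
    (mem_sub (mem_sc (10 * g) 3 w) (mem_cst (g - 1) 1)))) (by unfold cm; push_cast; ring)
  have s : mem (cs z) _ := mem_congr (mem_mul hX.b (mem_sub (mem_sc 47 200 hX.b1)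
    (mem_cst 28196 1000000))) (by unfold cs; push_cast; ring)
  have p := mem_sub (mem_sc 394 1000 P) (mem_sqB n)
  have h1 := pos_of_mem p h.1
  have h2 := pos_of_mem (mem_sub (mem_mul (mem_sub (mem_sc 394 1000 A) (mem_sqB s)) p)
    (mem_sqB (mem_sub (mem_sc 394 1000 m) (mem_mul s n)))) h.2
  push_cast at h1 h2
  constructor
  · linarith
  · linarith

/-- the test on consecutive cells of radius `1 / 8` -/
def chk : List Int → Int → Bool
  | [], _ => true
  | w :: ws, p => (fun X => tst 6 X && tst 15 X) (cellAt p 8 w) && chk ws (p + 2)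

lemma chk_ok : ∀ (ws : List ℤ) (p : ℤ), chk ws p = true → ∀ z : ℝ, (p - 1) / 8 < z →
    z ≤ (p - 1 + 2 * ws.length) / 8 → Good 6 z ∧ Good 15 z
  | [], p, _, z, h1, h2 => by
    simp only [List.length_nil, Nat.cast_zero, mul_zero, add_zero] at h2
    exact absurd h1 (not_lt.2 h2)
  | w :: ws, p, h, z, h1, h2 => by
    simp only [chk, Bool.and_eq_true] at h
    rcases le_or_gt z ((p + 1) / 8) with h3 | h3
    · have hX := cellAt_ok p 8 w z (by
        rw [abs_le]
        push_cast
        constructor <;> linarith)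
      have a1 := tst_ok hX h.1.1
      have a2 := tst_ok hX h.1.2
      push_cast at a1 a2
      exact ⟨a1, a2⟩
    · refine chk_ok ws (p + 2) h.2 z ?_ ?_
      · push_cast
        linarith
      · simp only [List.length_cons] at h2
        push_cast at h2 ⊢
        linarith

/-- witnesses -/
def ws : List Int :=
  [-19896903151285325378, -18239578480156702086, -16654311377869182813, -15141101775700761679,
  -13699949439222839284, -12330853620325634601, -11033812086930688851, -9808818616811171640,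
  -8655857017213125342, -7574887986266711572, -6565822659675183127, -5628474101942453845,
  -4762476990119827052, -3967169046870448193, -3241438006061130690, -2583554806519676317,
  -1991031553496733408, -1460550917031990369, -988002763489744905, -568634548087254219,
  -197287293410341794, 131333941053992222, 422407972326808923, 680800804381712153,
  910939009813213309, 1116749223911908342, 1301649386069567786, 1468574584044237573,
  1620022319362809001, 1758105875368031740, 1884608397449236293, 2001033456388802279,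
  2108650079371555522, 2208531626045129954, 2301588676940374200, 2388596493039321144,
  2470217754687481010, 2547021302132541730, 2619497546067295479, 2688071134416755929,
  2753111373170158838, 2814940815395407240, 2873842358493167255, 2930065126633488769,
  2983829362819392117, 3035330512016698302, 3084742641902879863, 3132221319657288244]

lemma chk_ws : chk ws (-47) = true := by decide +kernel

lemma mid {z : ℝ} (h1 : -6 < z) (h2 : z ≤ 6) : Good 6 z ∧ Good 15 z := by
  refine chk_ok ws (-47) chk_ws z ?_ ?_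
  · push_cast
    linarith
  · rw [show ws.length = 48 from rfl]
    push_cast
    linarith

lemma b1_gt {X : Box} {z : ℝ} (hX : X.ok z) (h : pos (X.b1 - cst 466 1000) = true) :
    466 / 1000 < b1 z := by
  have h1 := pos_of_mem (mem_sub hX.b1 (mem_cst 466 1000)) h
  push_cast at h1
  linarith

lemma b1_six : 466 / 1000 < b1 6 :=
  b1_gt (cellAt_ok 384 64 3155279775566138367 6 (by norm_num)) (by decide +kernel)

lemma sq_le_of {x c : ℝ} (h1 : -c ≤ x) (h2 : x ≤ c) : x ^ 2 ≤ c ^ 2 := sq_le_sq' h1 h2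

lemma upper_bd {z : ℝ} (hz : 6 ≤ z) : 466 / 1000 ≤ b1 z ∧ z / 2 ≤ b z ∧ b z ≤ 564 / 1000 * z ∧
    b2 z ≤ 114 / 10000 ∧ b z * b2 z ≤ 384 / 10000 := by
  have z0 : 0 < z := by linarith
  have β0 : 466 / 1000 ≤ b1 z := b1_six.le.trans (b1_strictMono.monotone hz)
  have β1 := (b1_lt z).le
  have k0 := kap_pos z
  have k1 : z * kap z ≤ 1 := by linarith [m2_pos z]
  have k2 : kap z ≤ 1 / 6 := by nlinarith
  have p0 := b_pos z
  have q0 := b2_pos z
  have e1 : kap z * b z = 1 - b1 z := by unfold b1; ring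
  have q1 : b2 z ≤ 68 / 1000 * kap z := by
    have h1 : 1 - z * kap z ≤ 2 * kap z ^ 2 := by
      have := va_lt z
      rw [va_eq] at this
      linarith
    have h2 : b2 z ≤ 2 * kap z ^ 2 * b z - kap z := by
      unfold b2
      nlinarith
    have h3 : 2 * kap z ^ 2 * b z - kap z = kap z * (1 - 2 * b1 z) := by
      linear_combination (2 * kap z) * e1
    nlinarith
  have e2 : b z = z + kap z - z * b1 z + b2 z := by rw [b2_eq, h_eq]; ring
  have p1 : z / 2 ≤ b z := by nlinarith
  have k3 : kap z ≤ z / 36 := by nlinarith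
  have p2 : b z ≤ 564 / 1000 * z := by nlinarith
  have q2 : b2 z ≤ 114 / 10000 := by linarith
  have q3 : b z * b2 z ≤ 384 / 10000 := by
    calc b z * b2 z ≤ 564 / 1000 * z * (68 / 1000 * kap z) := by gcongr
      _ ≤ _ := by nlinarith
  exact ⟨β0, p1, p2, q2, q3⟩

/-- the upper tail -/
lemma upper {g z : ℝ} (hg : 6 ≤ g) (hg' : g ≤ 15) (hz : 6 ≤ z) : Good g z := by
  obtain ⟨β0, p1, p2, q2, q3⟩ := upper_bd hz
  have β1 := (b1_lt z).le
  have p0 := b_pos z
  have q0 := b2_pos z
  have c0 : 466 / 1000 ≤ c1 z := by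
    unfold c1
    linarith [mul_pos p0 q0]
  have c2 : c1 z ≤ 5384 / 10000 := by
    unfold c1
    linarith
  have w0 : 119 / 1000 ≤ cw z := by unfold cw; linarith
  have w1 : cw z ≤ 1531 / 10000 := by unfold cw; linarith
  have w2 : cw z ^ 2 ≤ (1531 / 10000) ^ 2 := sq_le_of (by linarith) w1
  have hA : 44 / 100 + 396 / 10000 * z ^ 2 - 1 / 5 * z ≤ cA g z := by
    have h1 : z * (z / 2) * (792 / 10000) ≤ z * b z * (14 / 1000 + 14 / 100 * b1 z) := by
      gcongr
      linarith
    have h2 : 0 ≤ (g - 6) * (47 / 100 * c1 z - 5 / 3 * cw z ^ 2) :=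
      mul_nonneg (by linarith) (by linarith)
    unfold cA
    linarith
  have s0 : 0 ≤ cs z := mul_nonneg p0.le (by linarith)
  have s1 : cs z ≤ 504 / 10000 * z := by
    calc cs z ≤ 564 / 1000 * z * (89304 / 1000000) := by
          unfold cs
          gcongr
          · linarith
          · linarith
      _ ≤ _ := by linarith
  have s2 : cs z ^ 2 ≤ (504 / 10000 * z) ^ 2 := sq_le_of (by linarith) s1
  have n0 : -(195 / 1000) ≤ cn z := by unfold cn; linarith
  have n1 : cn z ≤ 0 := by unfold cn; linarith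
  have n2 : cn z ^ 2 ≤ (195 / 1000) ^ 2 := sq_le_of n0 (by linarith)
  have hP : 3309 / 10000 ≤ cP g z := by
    have h1 : b2 z ^ 2 ≤ (114 / 10000) ^ 2 := sq_le_of (by linarith) q2
    have h2 : g * b2 z ^ 2 ≤ 15 * (114 / 10000) ^ 2 := by gcongr
    unfold cP
    linarith
  have hp : 923 / 10000 ≤ cP g z * (394 / 1000) - cn z ^ 2 := by linarith
  have g0 : 0 ≤ g := by linarith
  have m0 : cm g z ≤ 0 := by
    have h1 : 10 * g / 3 * cw z - (g - 1) ≤ 0 := by linarith [mul_le_mul_of_nonneg_left w1 g0]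
    unfold cm
    linarith [mul_nonpos_of_nonneg_of_nonpos q0.le h1]
  have m1 : -(39 / 100 * (114 / 10000 * 9)) ≤ cm g z := by
    have h1 : -9 ≤ 10 * g / 3 * cw z - (g - 1) := by linarith [mul_le_mul_of_nonneg_left w0 g0]
    unfold cm
    linarith [mul_le_mul_of_nonneg_left h1 q0.le]
  have sn0 : 0 ≤ -(cs z * cn z) := by linarith [mul_nonpos_of_nonneg_of_nonpos s0 n1]
  have sn1 : -(cs z * cn z) ≤ 504 / 10000 * z * (195 / 1000) := by
    calc -(cs z * cn z) = cs z * -cn z := by ring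
      _ ≤ _ := by
        gcongr
        · linarith
        · linarith
  have hM : (cm g z * (394 / 1000) - cs z * cn z) ^ 2 ≤ (983 / 100000 * z) ^ 2 :=
    sq_le_of (by linarith) (by linarith)
  have ha : 173 / 1000 + 1306 / 100000 * z ^ 2 - 788 / 10000 * z
      ≤ cA g z * (394 / 1000) - cs z ^ 2 := by linarith [sq_nonneg z]
  have ha0 : 0 ≤ 173 / 1000 + 1306 / 100000 * z ^ 2 - 788 / 10000 * z := by
    nlinarith [sq_nonneg (z - 3)]
  refine ⟨by linarith, hM.trans (le_trans ?_ (mul_le_mul ha hp (by norm_num) (ha0.trans ha)))⟩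
  nlinarith [sq_nonneg (z - 33 / 10)]

lemma J_add (z : ℝ) : J z + J (-z) = √(2 * Real.pi) := by
  have hd : ∀ x, HasDerivAt (fun x => J x + J (-x)) 0 x := fun x => by
    refine ((J_hasDerivAt x).add ((J_hasDerivAt (-x)).comp x (hasDerivAt_neg x))).congr_deriv ?_
    rw [ph_neg]
    ring
  have h := is_const_of_deriv_eq_zero (fun x => (hd x).differentiableAt) (fun x => (hd x).deriv) z 0
  simp only [neg_zero, J_zero] at h
  linarith

lemma b_mul_h_neg (z : ℝ) : b z * h (-z) ≤ 1 := by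
  have j0 := J_pos z
  have j1 := J_pos (-z)
  have p0 := ph_pos z
  have h1 : E0 z ≤ J (-z) / J z := by
    unfold E0
    rw [← Real.log_inv, inv_div]
    refine (Real.log_le_sub_one_of_pos (div_pos sqrt_two_pi_pos j0)).trans (le_of_eq ?_)
    rw [← J_add z]
    field_simp
    ring
  rw [le_div_iff₀ j0] at h1
  have h2 : b z * h (-z) = E0 z * J z / J (-z) := by
    unfold b h
    rw [ph_neg]
    field_simp
  rw [h2, div_le_one j1]
  exact h1

/-- for `t > 0`: `b'' (-t) (t² + 2) ≤ 2 b (-t)` -/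
lemma b2_neg_le {t : ℝ} (ht : 0 < t) : b2 (-t) * (t ^ 2 + 2) ≤ 2 * b (-t) := by
  have h1 := b_mul_h_neg (-t)
  rw [neg_neg, h_eq t] at h1
  have h2 := rr_mul 0 t
  have h3 := rr_lt (0 + 1) ht
  rw [rr_zero] at h2
  rw [lt_div_iff₀ ht] at h3
  have k0 := kap_pos t
  have p0 := b_pos (-t)
  have h0 := h_pos (-t)
  have h4 : t ≤ kap t * (t ^ 2 + 2) := by
    push_cast at h2 h3
    nlinarith
  have h5 : t * b (-t) ≤ 1 := by nlinarith [mul_pos p0 k0]
  have h6 : b2 (-t) = (1 + t ^ 2) * b (-t) - t - h (-t) * (1 - t * b (-t)) := by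
    unfold b2 kap
    ring
  have h7 : b2 (-t) ≤ b (-t) * (1 - t * kap t) := by
    have := mul_nonneg h0.le (sub_nonneg.2 h5)
    nlinarith
  have h8 : b (-t) * t * t ≤ b (-t) * t * (kap t * (t ^ 2 + 2)) := by gcongr
  nlinarith

/-- the lower tail -/
lemma lower {g z : ℝ} (hg : 6 ≤ g) (hg' : g ≤ 15) (hz : z ≤ -6) : Good g z := by
  have p0 := b_pos z
  have q0 := b2_pos z
  have β0 := b1_pos z
  have h0 := h_pos z
  have e1 : (h z - z) * b z = 1 - b1 z := by unfold b1 kap; ring
  have p1 : -z * b z ≤ 1 := by nlinarith [mul_pos h0 p0]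
  have p2 : b z ≤ 1 / 6 := by nlinarith
  have β1 : b1 z ≤ 1 / 36 := by
    have := b2_eq z
    nlinarith
  have q1 : b2 z ≤ 1 / 100 := by
    have := b2_neg_le (t := -z) (by linarith)
    rw [neg_neg] at this
    have h2 : 36 ≤ (-z) ^ 2 := by nlinarith
    nlinarith
  have q3 : b z * b2 z ≤ 1 / 6 * (1 / 100) := by gcongr
  have c0 : 0 ≤ c1 z := by
    unfold c1
    nlinarith [mul_pos p0 q0]
  have c2 : c1 z ≤ 3 / 100 := by
    unfold c1
    linarith
  have w0 : -(1 / 10) ≤ cw z := by unfold cw; linarith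
  have w1 : cw z ≤ 0 := by unfold cw; linarith
  have w2 : cw z ^ 2 ≤ (1 / 10) ^ 2 := sq_le_of w0 (by linarith)
  have hA : 1 / 2 ≤ cA g z := by
    have h1 : -z * b z * (14 / 1000 + 14 / 100 * b1 z) ≤ 1 * (2 / 100) := by
      gcongr
      linarith
    have h2 : 0 ≤ (47 * g - 61) / 100 * c1 z := mul_nonneg (by linarith) c0
    have h3 : g * cw z ^ 2 ≤ 15 * (1 / 10) ^ 2 := by gcongr
    unfold cA
    nlinarith
  have s0 : -(5 / 1000) ≤ cs z := by unfold cs; nlinarith
  have s1 : cs z ≤ 0 := by unfold cs; nlinarith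
  have s2 : cs z ^ 2 ≤ (5 / 1000) ^ 2 := sq_le_of s0 (by linarith)
  have n0 : -(11 / 1000) ≤ cn z := by unfold cn; linarith
  have n1 : cn z ≤ 0 := by unfold cn; linarith
  have n2 : cn z ^ 2 ≤ (11 / 1000) ^ 2 := sq_le_of n0 (by linarith)
  have hP : 33 / 100 ≤ cP g z := by
    have h1 : b2 z ^ 2 ≤ (1 / 100) ^ 2 := sq_le_of (by linarith) q1
    have h2 : g * b2 z ^ 2 ≤ 15 * (1 / 100) ^ 2 := by gcongr
    unfold cP
    nlinarith
  have hp : 12 / 100 ≤ cP g z * (394 / 1000) - cn z ^ 2 := by linarith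
  have m0 : cm g z ≤ 0 := by
    have : 10 * g / 3 * cw z - (g - 1) ≤ 0 := by nlinarith
    unfold cm
    nlinarith
  have m1 : -(39 / 100 * (1 / 100 * 19)) ≤ cm g z := by
    have h1 : -19 ≤ 10 * g / 3 * cw z - (g - 1) := by nlinarith
    unfold cm
    nlinarith
  have sn0 : 0 ≤ cs z * cn z := mul_nonneg_of_nonpos_of_nonpos s1 n1
  have sn1 : cs z * cn z ≤ 1 / 1000 := by nlinarith
  have hM : (cm g z * (394 / 1000) - cs z * cn z) ^ 2 ≤ (4 / 100) ^ 2 :=
    sq_le_of (by linarith) (by linarith)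
  have ha : 19 / 100 ≤ cA g z * (394 / 1000) - cs z ^ 2 := by linarith
  refine ⟨by linarith, hM.trans (le_trans ?_ (mul_le_mul ha hp (by norm_num) (by linarith)))⟩
  norm_num

lemma form_of_good {g z : ℝ} (h : Good g z) (u e V : ℝ) : 0 ≤ form g z u e V :=
  form_nonneg (by norm_num) h.1 h.2 u e V

end Vale.Agent.P254Z.Cert.QC

namespace Vale.Agent.P254Z.Cert

open QC

theorem stmtQ0C : StmtQ0C := by
  intro g hg hg' z u e V
  rw [← sub_nonneg, Q0_eq]
  rcases le_or_gt z (-6) with h1 | h1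
  · exact form_of_good (lower hg hg' h1) u e V
  rcases le_or_gt 6 z with h2 | h2
  · exact form_of_good (upper hg hg' h2) u e V
  obtain ⟨a1, a2⟩ := mid h1 h2.le
  have e1 : form g z u e V = (15 - g) / 9 * form 6 z u e V + (g - 6) / 9 * form 15 z u e V := by
    simp only [form, cA, cP, cm]
    ring
  rw [e1]
  exact add_nonneg (mul_nonneg (by linarith) (form_of_good a1 u e V))
    (mul_nonneg (by linarith) (form_of_good a2 u e V))

end Vale.Agent.P254Z.Cert
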