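import Vale.Agent.P254Z.Cert.Q0Chk

/-!
# P254: the forms of level zero on `[-6, 8)`
-/

namespace Vale.Agent.P254Z.Cert

/-- witnesses of the cells -/
def ws0 : List Int :=
  [-20066598785586727715, -18729209835431801096, -17437937735285085374, -16192782465447463353,
  -14993743971615126870, -13840822110344361353, -12734016518652762446, -11673326316887259723,
  -10658749464207593963, -9690281429490599815, -8767912589892215006, -7891623407703544072,
  -7061375981448365559, -6277100107733003753, -5538671719020221982, -4845881781285139094,
  -4198394790576811240, -3595698124461004690, -3037046548041489599, -2521409451971366140,
  -2047430702066128238, -1613411002052572572, -1217319715804529307, -856837654674457450,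
  -529426072849303739, -232412131427162691, 36921091713592972, 281251068158044467,
  503146660124308959, 705017276336441293, 889080713335067016, 1057347561002410910,
  1211618769385546828, 1353492677984865584, 1484378143711190187]

theorem run0 : chkRun 10 (-59) ws0 = true := by decide +kernel

/-- witnesses of the cells -/
def ws1 : List Int :=
  [1605511041121017454, 1717972114055098892, 1822704797297649204, 1920532143158421003,
  2012172371806270347, 2098252831010072189, 2179322324797346489, 2255861875826542967,
  2328294043820783342, 2396990948400833535, 2462281150854479524, 2524455543945613446,
  2583772387218279081, 2640461610843497680, 2694728495992990153, 2746756825208825742,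
  2796711582898995459, 2844741274194951373, 2890979920014173871, 2935548777215433022,
  2978557825092819863, 3020107052978506780, 3060287578261549959, 3099182619536626888,
  3136868345741518514, 3173414618909970800, 3208885645457448068, 3243340548645978894,
  3276833872968708840, 3309416029594355521, 3341133690665873932, 3372030139114075929,
  3402145579690597400, 3431517416116298585, 3460180498556692094]

theorem run1 : chkRun 10 (11) ws1 = true := by decide +kernel

theorem goodAt_mid {t : ℝ} (h1 : -6 ≤ t) (h2 : t < 8) : GoodAt t := by
  rcases lt_or_ge t 1 with h | h
  · refine chkRun_ok (by norm_num) ws0 (-59) run0 t ?_ ?_
    · norm_num; linarith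
    · rw [show ws0.length = 35 from rfl]; norm_num; linarith
  · refine chkRun_ok (by norm_num) ws1 11 run1 t ?_ ?_
    · norm_num; linarith
    · rw [show ws1.length = 35 from rfl]; norm_num; linarith

end Vale.Agent.P254Z.Cert
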