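import Vale.Agent.P254Z.Cert.Glue
import Vale.Agent.P254Z.SF.Cell

/-!
# P254: the checker for the forms of level zero
-/

namespace Vale.Agent.P254Z.Cert

open Vale.Agent.P254.SF Vale.Agent.P254.SF.B Vale.Agent.P254Z.Row

/-- a rational number -/
structure Rt where
  n : Int
  d : Nat

/-- its value -/
noncomputable def Rt.v (c : Rt) : ℝ := (c.n : ℝ) / c.d

/-- product with a ball -/
def Rt.mul (c : Rt) (a : B) : B := sc c.n c.d a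

/-- the ball of the number -/
def Rt.b (c : Rt) : B := cst c.n c.d

lemma Rt.mem_mul (c : Rt) {x : ℝ} {a : B} (h : mem x a) : mem (c.v * x) (c.mul a) :=
  mem_sc c.n c.d h

lemma Rt.mem_b (c : Rt) : mem c.v c.b := mem_cst c.n c.d

/-- the coefficients of one form -/
structure Par where
  a1 : Rt
  a2 : Rt
  a3 : Rt
  a4 : Rt
  a5 : Rt
  a6 : Rt
  ga : Rt
  k1 : Rt
  k2 : Rt
  y : Rt
  m1 : Rt
  q0 : Rt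
  u1 : Rt
  u2 : Rt
  e0 : Rt
  p : Rt

/-- the form; `zb = z b`, `hh = h ^ 2`, `zo = z`, `o = 1` or the same after scaling by `1 / z` -/
noncomputable def Par.form (c : Par) (zb hh zo o bb b1 b2 c1 U E V : ℝ) : ℝ :=
  (zb * (c.a1.v * (1 + b1) + c.a2.v) + c.a3.v * hh + c.a4.v * zo +
      (c.a5.v + c.a6.v * c1) * o ^ 2) * U ^ 2
    - c.ga.v * (c.y.v * b2 * E - (c.k1.v * c1 - c.k2.v) * o * U) ^ 2
    - 2 * c.m1.v * b2 * o * U * E + c.q0.v * E ^ 2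
    + bb * (c.u1.v * (1 + b1) + c.u2.v) * U * V + (c.e0.v - 2 * c.y.v * b1) * E * V
    + c.p.v * V ^ 2

lemma psd3 {a m q cu ce p : ℝ} (hp : 0 < p) (hq : 0 < 4 * (p * q) - ce ^ 2)
    (h : 0 < (4 * (p * a) - cu ^ 2) * (4 * (p * q) - ce ^ 2) - (4 * (p * m) - cu * ce) ^ 2)
    (U E V : ℝ) : 0 ≤ a * U ^ 2 + 2 * m * U * E + q * E ^ 2 + cu * U * V + ce * E * V +
      p * V ^ 2 := by
  refine nonneg_of_mul_nonneg_right (a := 4 * p * (4 * (p * q) - ce ^ 2)) ?_ (by positivity) |>.trans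
    le_rfl
  have e : 4 * p * (4 * (p * q) - ce ^ 2) * (a * U ^ 2 + 2 * m * U * E + q * E ^ 2 + cu * U * V +
      ce * E * V + p * V ^ 2) = (4 * (p * q) - ce ^ 2) * (2 * p * V + cu * U + ce * E) ^ 2 +
      ((4 * (p * q) - ce ^ 2) * E + (4 * (p * m) - cu * ce) * U) ^ 2 +
      ((4 * (p * a) - cu ^ 2) * (4 * (p * q) - ce ^ 2) - (4 * (p * m) - cu * ce) ^ 2) * U ^ 2 := by
    ring
  rw [e]
  positivity

/-- the check of one form on a box -/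
def Par.chk (c : Par) (zb hh zo o bb b1 b2 c1 : B) : Bool :=
  B.seq (cst 1 1 + b1) fun s => B.seq ((c.k1.mul c1 - c.k2.b) * o) fun k =>
  B.seq (c.y.mul b2) fun w =>
  B.seq (zb * (c.a1.mul s + c.a2.b) + c.a3.mul hh + c.a4.mul zo +
    (c.a5.b + c.a6.mul c1) * sqB o - c.ga.mul (sqB k)) fun a =>
  B.seq (b2 * (c.ga.mul (c.y.mul k) - c.m1.mul o)) fun m =>
  B.seq (bb * (c.u1.mul s + c.u2.b)) fun cu => B.seq (c.e0.b - sc 2 1 (c.y.mul b1)) fun ce =>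
  B.seq (sc 4 1 (c.p.mul (c.q0.b - c.ga.mul (sqB w))) - sqB ce) fun q =>
  pos c.p.b && pos q &&
    pos ((sc 4 1 (c.p.mul a) - sqB cu) * q - sqB (sc 4 1 (c.p.mul m) - cu * ce))

theorem Par.chk_ok (c : Par) {zb hh zo o bb b1 b2 c1 : ℝ} {ZB HH ZO O BB B1 B2 C1 : B}
    (h1 : mem zb ZB) (h2 : mem hh HH) (h3 : mem zo ZO) (h4 : mem o O) (h5 : mem bb BB)
    (h6 : mem b1 B1) (h7 : mem b2 B2) (h8 : mem c1 C1)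
    (h : c.chk ZB HH ZO O BB B1 B2 C1 = true) (U E V : ℝ) :
    0 ≤ c.form zb hh zo o bb b1 b2 c1 U E V := by
  simp only [Par.chk, seq_eq, Bool.and_eq_true] at h
  obtain ⟨⟨p0, q0⟩, d0⟩ := h
  have s := mem_add mem_one h6
  have k := mem_mul (mem_sub (c.k1.mem_mul h8) c.k2.mem_b) h4
  have w := c.y.mem_mul h7
  have a := mem_sub (mem_add (mem_add (mem_add (mem_mul h1 (mem_add (c.a1.mem_mul s) c.a2.mem_b))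
    (c.a3.mem_mul h2)) (c.a4.mem_mul h3))
    (mem_mul (mem_add c.a5.mem_b (c.a6.mem_mul h8)) (mem_sqB h4))) (c.ga.mem_mul (mem_sqB k))
  have m := mem_mul h7 (mem_sub (c.ga.mem_mul (c.y.mem_mul k)) (c.m1.mem_mul h4))
  have cu := mem_mul h5 (mem_add (c.u1.mem_mul s) c.u2.mem_b)
  have ce := mem_sub c.e0.mem_b (mem_sc 2 1 (c.y.mem_mul h6))
  have q := mem_sub (mem_sc 4 1 (c.p.mem_mul (mem_sub c.q0.mem_b (c.ga.mem_mul (mem_sqB w)))))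
    (mem_sqB ce)
  have k1 := pos_of_mem c.p.mem_b p0
  have k2 := pos_of_mem q q0
  have k3 := pos_of_mem (mem_sub (mem_mul (mem_sub (mem_sc 4 1 (c.p.mem_mul a)) (mem_sqB cu)) q)
    (mem_sqB (mem_sub (mem_sc 4 1 (c.p.mem_mul m)) (mem_mul cu ce)))) d0
  simp only [Int.cast_ofNat, Nat.cast_one, div_one] at k2 k3
  refine (psd3 k1 k2 k3 U E V).trans (le_of_eq ?_)
  unfold Par.form
  ring

/-- class A at `g = 0` -/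
def pA0 : Par := ⟨⟨0, 1⟩, ⟨1, 100⟩, ⟨0, 1⟩, ⟨-11, 500⟩, ⟨-41, 1000⟩, ⟨4, 25⟩, ⟨0, 1⟩, ⟨2, 25⟩,
  ⟨41, 2000⟩, ⟨1, 1⟩, ⟨1, 1⟩, ⟨21, 25⟩, ⟨4, 25⟩, ⟨-9853, 50000⟩, ⟨27727, 50000⟩, ⟨19, 100⟩⟩

/-- class A at `g = 5 / 2` -/
def pA1 : Par := ⟨⟨0, 1⟩, ⟨1, 100⟩, ⟨0, 1⟩, ⟨-11, 500⟩, ⟨-41, 1000⟩, ⟨4, 25⟩, ⟨50, 3⟩, ⟨2, 25⟩,
  ⟨41, 2000⟩, ⟨1, 1⟩, ⟨1, 1⟩, ⟨471, 400⟩, ⟨4, 25⟩, ⟨-11103, 50000⟩, ⟨27727, 50000⟩, ⟨19, 100⟩⟩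

/-- class B at `g = 5 / 2` -/
def pB0 : Par := ⟨⟨1, 20⟩, ⟨-39, 1000⟩, ⟨0, 1⟩, ⟨-6, 125⟩, ⟨-7, 100⟩, ⟨13, 40⟩, ⟨50, 3⟩, ⟨1, 8⟩,
  ⟨4, 125⟩, ⟨7, 10⟩, ⟨21, 20⟩, ⟨1071, 1600⟩, ⟨1, 4⟩, ⟨-7519, 25000⟩, ⟨7261, 25000⟩, ⟨37, 100⟩⟩

/-- class B at `g = 6` -/
def pB1 : Par := ⟨⟨1, 20⟩, ⟨-39, 1000⟩, ⟨0, 1⟩, ⟨-6, 125⟩, ⟨-7, 100⟩, ⟨6, 5⟩, ⟨40, 1⟩, ⟨1, 8⟩,
  ⟨4, 125⟩, ⟨7, 10⟩, ⟨7, 2⟩, ⟨1253, 2000⟩, ⟨1, 4⟩, ⟨-7519, 25000⟩, ⟨7261, 25000⟩, ⟨37, 100⟩⟩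

/-- class C at `g = 6` -/
def pC0 : Par := ⟨⟨7, 50⟩, ⟨-63, 500⟩, ⟨0, 1⟩, ⟨-1, 5⟩, ⟨-7, 20⟩, ⟨221, 100⟩, ⟨40, 1⟩, ⟨47, 200⟩,
  ⟨1, 20⟩, ⟨39, 100⟩, ⟨39, 20⟩, ⟨73437, 200000⟩, ⟨47, 100⟩, ⟨-65799, 125000⟩, ⟨0, 1⟩, ⟨197, 500⟩⟩

/-- class C at `g = 15` -/
def pC1 : Par := ⟨⟨7, 50⟩, ⟨-63, 500⟩, ⟨0, 1⟩, ⟨-1, 5⟩, ⟨-7, 20⟩, ⟨161, 25⟩, ⟨100, 1⟩, ⟨47, 200⟩,
  ⟨1, 20⟩, ⟨39, 100⟩, ⟨273, 50⟩, ⟨26637, 80000⟩, ⟨47, 100⟩, ⟨-65799, 125000⟩, ⟨0, 1⟩, ⟨197, 500⟩⟩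

/-- class D at `g = 15` -/
def pD0 : Par := ⟨⟨16, 25⟩, ⟨-87, 200⟩, ⟨-1, 5⟩, ⟨-3, 10⟩, ⟨-31, 50⟩, ⟨22, 5⟩, ⟨100, 1⟩, ⟨9, 50⟩,
  ⟨0, 1⟩, ⟨0, 1⟩, ⟨0, 1⟩, ⟨1, 1⟩, ⟨9, 25⟩, ⟨-63974, 125000⟩, ⟨0, 1⟩, ⟨121, 250⟩⟩

/-- the seven checks, and the bound for `c₁` -/
def chkAll (zb hh zo o bb b1 b2 c1 : B) : Bool :=
  B.seq zb fun zb => B.seq hh fun hh => B.seq c1 fun c1 =>
  [pA0, pA1, pB0, pB1, pC0, pC1, pD0].all (fun c => c.chk zb hh zo o bb b1 b2 c1) &&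
    pos (cst 5 3 - c1)

/-- what is certified at a point -/
def Good (zb hh zo o bb b1 b2 c1 : ℝ) : Prop :=
  (∀ c ∈ [pA0, pA1, pB0, pB1, pC0, pC1, pD0], ∀ U E V,
    0 ≤ c.form zb hh zo o bb b1 b2 c1 U E V) ∧ c1 ≤ 5 / 3

theorem chkAll_ok {zb hh zo o bb b1 b2 c1 : ℝ} {ZB HH ZO O BB B1 B2 C1 : B}
    (h1 : mem zb ZB) (h2 : mem hh HH) (h3 : mem zo ZO) (h4 : mem o O) (h5 : mem bb BB)
    (h6 : mem b1 B1) (h7 : mem b2 B2) (h8 : mem c1 C1)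
    (h : chkAll ZB HH ZO O BB B1 B2 C1 = true) : Good zb hh zo o bb b1 b2 c1 := by
  simp only [chkAll, seq_eq, Bool.and_eq_true, List.all_eq_true] at h
  refine ⟨fun c hc => c.chk_ok h1 h2 h3 h4 h5 h6 h7 h8 (h.1 c hc), ?_⟩
  have := pos_of_mem (mem_sub (mem_cst 5 3) h8) h.2
  norm_num at this
  exact this.le

/-- the property at the point `z` -/
def GoodAt (z : ℝ) : Prop := Good (z * b z) (h z ^ 2) z 1 (b z) (b1 z) (b2 z) (c1 z)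

/-- the check on a box -/
def chkBox (X : Box) : Bool :=
  match X with
  | ⟨z, h, _, _, _, _, b, b1, b2, _, _⟩ => chkAll (z * b) (sqB h) z (cst 1 1) b b1 b2 (b1 + b * b2)

theorem chkBox_ok {X : Box} {t : ℝ} (hX : X.ok t) (h : chkBox X = true) : GoodAt t :=
  chkAll_ok (mem_mul hX.z hX.b) (mem_sqB hX.h) hX.z mem_one hX.b hX.b1 hX.b2
    (mem_add hX.b1 (mem_mul hX.b hX.b2)) h

/-- consecutive cells with centres `p / q`, `(p + 2) / q`, ... -/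
def chkRun (q : Nat) : Int → List Int → Bool
  | _, [] => true
  | p, w :: ws => chkBox (cellAt p q w) && chkRun q (p + 2) ws

theorem chkRun_ok {q : ℕ} (hq : 0 < q) : ∀ (ws : List ℤ) (p : ℤ), chkRun q p ws = true →
    ∀ t : ℝ, (p - 1 : ℝ) / q ≤ t → t < (p - 1 + 2 * ws.length : ℝ) / q → GoodAt t
  | [], p, _, t, h1, h2 => by
    simp only [List.length_nil, Nat.cast_zero, mul_zero, add_zero] at h2
    exact absurd h1 (not_le.2 h2)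
  | w :: ws, p, h, t, h1, h2 => by
    simp only [chkRun, Bool.and_eq_true] at h
    have q0 : (0 : ℝ) < q := by exact_mod_cast hq
    rcases le_total t ((p + 1 : ℝ) / q) with h3 | h3
    · refine chkBox_ok (cellAt_ok p q w t ?_) h.1
      rw [sub_div] at h1
      rw [add_div] at h3
      rw [abs_le]
      constructor <;> linarith
    · refine chkRun_ok hq ws (p + 2) h.2 t ?_ ?_
      · push_cast
        rwa [show (p : ℝ) + 2 - 1 = p + 1 by ring]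
      · rw [List.length_cons] at h2
        push_cast at h2 ⊢
        rwa [show (p : ℝ) + 2 - 1 + 2 * ws.length = p - 1 + 2 * (ws.length + 1) by ring]

end Vale.Agent.P254Z.Cert
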