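import Vale.Agent.P254Z.SF.Cell
import Vale.Agent.P254Z.Cert.Glue

/-!
# P254: the certificate of level zero, class D
-/

namespace Vale.Agent.P254Z.Cert.D

open Vale.Agent.P254.SF Vale.Agent.P254.SF.B Vale.Agent.P254Z.Row

/-- forces a box -/
def boxSeq (X : Box) (k : Box → Bool) : Bool :=
  match X with
  | ⟨z, h, kk, v, h2, e, b, b1, b2, b3, b4⟩ => k ⟨z, h, kk, v, h2, e, b, b1, b2, b3, b4⟩

/-- checks consecutive cells -/
def chk (f : Box → Bool) (q : Nat) : Int → List Int → Bool
  | _, [] => true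
  | p, w :: ws => boxSeq (cellAt p q w) f && chk f q (p + 2) ws

theorem chk_ok {f : Box → Bool} {P : ℝ → Prop} (hf : ∀ X t, X.ok t → f X = true → P t) {q : ℕ} (hq : 0 < q) :
    ∀ (ws : List ℤ) (p : ℤ), chk f q p ws = true → ∀ t : ℝ, ((p : ℝ) - 1) / q ≤ t →
      t < ((p : ℝ) - 1 + 2 * ws.length) / q → P t
  | [], p, _, t, h1, h2 => by
    simp only [List.length_nil, Nat.cast_zero, mul_zero, add_zero] at h2
    exact absurd h1 (not_le.2 h2)
  | w :: ws, p, h, t, h1, h2 => by
    have hq' : (0 : ℝ) < q := by exact_mod_cast hq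
    rw [chk, Bool.and_eq_true] at h
    rcases le_total t (((p : ℝ) + 1) / q) with h3 | h3
    · refine hf _ t (cellAt_ok p q w t ?_) h.1
      rw [sub_div] at h1
      rw [add_div] at h3
      rw [abs_le]
      constructor <;> linarith
    · refine chk_ok hf hq ws (p + 2) h.2 t ?_ ?_
      · refine le_trans (le_of_eq ?_) h3
        push_cast
        ring
      · refine h2.trans_le (le_of_eq ?_)
        simp only [List.length_cons]
        push_cast
        ring

/-- the coefficient of `u²` after elimination -/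
noncomputable def FD (z : ℝ) : ℝ :=
  z * (b z * (41 / 200 + 16 / 25 * b1 z) - 3 / 10) - 1 / 5 * h z ^ 2 + c1 z * (22 / 5 - 81 / 25 * c1 z)
    - 125 / 242 * (b z * (9 / 25 * b1 z - 9487 / 62500)) ^ 2 - 31 / 50

/-- the test on a box -/
def fD (X : Box) : Bool :=
  B.seq (X.b1 + X.b * X.b2) fun c => pos (cst 5 3 - c) &&
    pos (X.z * (X.b * (cst 41 200 + sc 16 25 X.b1) - cst 3 10) - sc 1 5 (sqB X.h)
      + c * (cst 22 5 - sc 81 25 c) - sc 125 242 (sqB (X.b * (sc 9 25 X.b1 - cst 9487 62500))) - cst 31 50)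

theorem fD_ok (X : Box) (t : ℝ) (hX : X.ok t) (h : fD X = true) : c1 t ≤ 5 / 3 ∧ 0 ≤ FD t := by
  rw [fD, seq_eq, Bool.and_eq_true] at h
  have hc : mem (c1 t) _ := mem_add hX.b1 (mem_mul hX.b hX.b2)
  have h1 := pos_of_mem (mem_sub (mem_cst 5 3) hc) h.1
  have h2 := pos_of_mem (mem_sub (mem_sub (mem_add (mem_sub (mem_mul hX.z (mem_sub (mem_mul hX.b
    (mem_add (mem_cst 41 200) (mem_sc 16 25 hX.b1))) (mem_cst 3 10))) (mem_sc 1 5 (mem_sqB hX.h)))
    (mem_mul hc (mem_sub (mem_cst 22 5) (mem_sc 81 25 hc)))) (mem_sc 125 242 (mem_sqB (mem_mul hX.b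
    (mem_sub (mem_sc 9 25 hX.b1) (mem_cst 9487 62500)))))) (mem_cst 31 50)) h.2
  push_cast at h1 h2
  exact ⟨by linarith, h2.le⟩

theorem chk1 : chk fD 8 (-47)
  [-19896903151285325378, -18239578480156702086, -16654311377869182813, -15141101775700761679,
   -13699949439222839284, -12330853620325634601, -11033812086930688851, -9808818616811171640,
   -8655857017213125342, -7574887986266711572, -6565822659675183127, -5628474101942453845,
   -4762476990119827052, -3967169046870448193, -3241438006061130690, -2583554806519676317,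
   -1991031553496733408, -1460550917031990369, -988002763489744905, -568634548087254219,
   -197287293410341794, 131333941053992222, 422407972326808923, 680800804381712153,
   910939009813213309, 1116749223911908342, 1301649386069567786, 1468574584044237573,
   1620022319362809001, 1758105875368031740, 1884608397449236293, 2001033456388802279,
   2108650079371555522, 2208531626045129954, 2301588676940374200, 2388596493039321144,
   2470217754687481010, 2547021302132541730, 2619497546067295479, 2688071134416755929] = true := by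
  decide +kernel

theorem chk2 : chk fD 16 65
  [2737164197786668919, 2768858066628635376, 2799768377466264241, 2829930423907108225,
   2859377311205956161, 2888140122851984347, 2916248072566617182, 2943728643115730516,
   2970607713197516434, 2996909673539457893, 3022657533223105142, 3047873017152448841,
   3072576655489479209, 3096787865797929390, 3120525028562238600, 3143805556682539576,
   3166645959487163155, 3189061901751027815, 3211068258160684928, 3232679163624130264,
   3253908059785239987, 3274767738068372096, 3295270379547869888, 3315427591909536096,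
   3335250443746279456, 3354749496407770615, 3373934833603815579, 3392816088943025262,
   3411402471572018244, 3429702790065652940, 3447725474705477522, 3465478598271562506,
   3482969895462008939, 3500206781044586454, 3517196366836044613, 3533945477596563699,
   3550460665919483606, 3566748226189796519, 3582814207678843698, 3598664426837158859] = true := by
  decide +kernel

theorem chk3 : chk (fun X => pos (cst 481 100 - X.b) && pos (X.b1 - cst 47 100)) 64 576 [3606510382377436880] = true := by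
  decide +kernel

theorem at9 : b 9 ≤ 481 / 100 ∧ 47 / 100 ≤ b1 9 := by
  refine chk_ok (P := fun t => b t ≤ 481 / 100 ∧ 47 / 100 ≤ b1 t) (fun X t hX h => ?_) (by norm_num) _ _ chk3 9
    (by norm_num) (by norm_num)
  rw [Bool.and_eq_true] at h
  have h1 := pos_of_mem (mem_sub (mem_cst 481 100) hX.b) h.1
  have h2 := pos_of_mem (mem_sub hX.b1 (mem_cst 47 100)) h.2
  push_cast at h1 h2
  constructor <;> linarith

theorem kap_b (z : ℝ) : kap z * b z = 1 - b1 z := by unfold b1; ring

theorem c1_pos (z : ℝ) : 0 < c1 z := add_pos (b1_pos z) (mul_pos (b_pos z) (b2_pos z))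

theorem E0_eq (z : ℝ) : E0 z = z * b z - b1 z + 1 := by
  rw [← h_mul_b, h_eq, add_mul, kap_b]
  ring

theorem FD_ge {z : ℝ} (hc : c1 z ≤ 5 / 4) :
    z * (b z * (41 / 200 + 16 / 25 * b1 z) - 3 / 10) - 1 / 5 * h z ^ 2
      - 125 / 242 * (b z * (9 / 25 * b1 z - 9487 / 62500)) ^ 2 - 31 / 50 ≤ FD z := by
  have := mul_nonneg (c1_pos z).le (show 0 ≤ 22 / 5 - 81 / 25 * c1 z by linarith)
  unfold FD
  linarith

theorem left {z : ℝ} (hz : z ≤ -6) : c1 z ≤ 5 / 3 ∧ 0 ≤ FD z := by
  have hb := b_pos z
  have hh := h_pos z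
  have h1 := b1_pos z
  have h2 := b1_lt z
  have h3 := b2_pos z
  have hk : -z < kap z := by unfold kap; linarith
  have h4 := kap_b z
  have h5 : -z * b z ≤ 1 := by nlinarith
  have h6 : b z ≤ 1 / 6 := by nlinarith
  have h7 : h z ≤ 1 / 6 := by nlinarith [h1_lt_one z]
  have h8 : b2 z ≤ 1 / 6 := by rw [b2_eq]; nlinarith
  have hc : c1 z ≤ 5 / 4 := by unfold c1; nlinarith
  refine ⟨by linarith, le_trans ?_ (FD_ge hc)⟩
  have h9 : (b z * (9 / 25 * b1 z - 9487 / 62500)) ^ 2 ≤ (1 / 6 * (1 / 5)) ^ 2 := by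
    rw [mul_pow, mul_pow]
    exact mul_le_mul (pow_le_pow_left₀ hb.le h6 2) (sq_le_sq' (by linarith) (by linarith)) (sq_nonneg _) (sq_nonneg _)
  have h10 : -z * b z * (41 / 200 + 16 / 25 * b1 z) ≤ 1 * (21 / 40) :=
    mul_le_mul h5 (by linarith) (by linarith) zero_le_one
  nlinarith

theorem right {z : ℝ} (hz : 9 ≤ z) : c1 z ≤ 5 / 3 ∧ 0 ≤ FD z := by
  have hb := b_pos z
  have hh := h_pos z
  have h1 : 47 / 100 ≤ b1 z := at9.2.trans (b1_strictMono.monotone hz)
  have h2 := b1_lt z
  have h3 := b2_pos z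
  have hk := kap_pos z
  have hm := m2_pos z
  have h4 := kap_b z
  have h5 : b z ≤ z / 2 + 31 / 100 := by
    have := (antitone_of_hasDerivAt_nonpos (f := fun x => b x - x / 2) (f' := fun x => b1 x - 1 / 2)
      (fun x => (b_hasDerivAt x).sub ((hasDerivAt_id x).div_const 2)) fun x => by
        simpa using (b1_lt x).le) hz
    linarith [at9.1]
  have h6 : z / 2 ≤ b z := by
    by_contra h7
    nlinarith
  have hk1 : kap z ≤ 1 / 9 := by nlinarith
  have h7 : 1 - z * kap z ≤ 2 * kap z ^ 2 := by have := va_lt z; rw [va_eq] at this; linarith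
  have h8 : b z * b2 z ≤ 2 * (kap z * b z) ^ 2 := by
    unfold b2
    nlinarith [mul_le_mul_of_nonneg_right h7 (sq_nonneg (b z)), mul_pos hk hb]
  have hc : c1 z ≤ 5 / 4 := by unfold c1; rw [h4] at h8; nlinarith
  refine ⟨by linarith, le_trans ?_ (FD_ge hc)⟩
  have h9 : (b z * (9 / 25 * b1 z - 9487 / 62500)) ^ 2 ≤ (3 / 5 * z) ^ 2 * (3 / 100) ^ 2 := by
    rw [mul_pow]
    exact mul_le_mul (pow_le_pow_left₀ hb.le (by linarith) 2) (sq_le_sq' (by linarith) (by linarith)) (sq_nonneg _) (sq_nonneg _)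
  have h10 : h z ^ 2 ≤ z ^ 2 + 2 + 1 / 81 := by rw [h_eq]; nlinarith
  have h11 : z / 2 * (1 / 2 + 1 / 200) ≤ b z * (41 / 200 + 16 / 25 * b1 z) :=
    mul_le_mul h6 (by linarith) (by norm_num) hb.le
  nlinarith [mul_le_mul_of_nonneg_left h11 (by linarith : 0 ≤ z), mul_nonneg (sub_nonneg.2 hz) (sub_nonneg.2 hz)]

theorem all (z : ℝ) : c1 z ≤ 5 / 3 ∧ 0 ≤ FD z := by
  rcases le_or_gt z (-6) with h1 | h1
  · exact left h1
  rcases lt_or_ge z 4 with h2 | h2
  · exact chk_ok fD_ok (by norm_num) _ _ chk1 z (by norm_num; linarith) (by norm_num; linarith)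
  rcases lt_or_ge z 9 with h3 | h3
  · exact chk_ok fD_ok (by norm_num) _ _ chk2 z (by norm_num; linarith) (by norm_num; linarith)
  · exact right h3

end Vale.Agent.P254Z.Cert.D

namespace Vale.Agent.P254Z.Cert

open Vale.Agent.P254.SF Vale.Agent.P254Z.Row

theorem stmtQ0D : StmtQ0D := by
  intro g hg z u e V
  obtain ⟨h1, h2⟩ := D.all z
  have h3 := D.c1_pos z
  have h4 : 0 ≤ (g - 15) * (c1 z * (9 / 25 - 27 / 125 * c1 z)) :=
    mul_nonneg (by linarith) (mul_nonneg h3.le (by linarith))
  have e1 : Q0 bud muD g z u e V - muD.t0 * u ^ 2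
      = 121 / 250 * (V + 125 / 121 * (b z * (9 / 25 * b1 z - 9487 / 62500)) * u) ^ 2
        + (D.FD z + (g - 15) * (c1 z * (9 / 25 - 27 / 125 * c1 z))) * u ^ 2 := by
    have e2 : 2 * E0 z - b z ^ 2 = z * phi z + 1 - c1 z := by
      have e3 := h_mul_b z
      have e4 := D.E0_eq z
      unfold phi c1
      rw [b2_eq]
      linarith
    simp only [Q0, bud, muD, D.FD]
    rw [e2]
    unfold phi
    ring
  nlinarith [mul_nonneg (add_nonneg h2 h4) (sq_nonneg u),
    sq_nonneg (V + 125 / 121 * (b z * (9 / 25 * b1 z - 9487 / 62500)) * u)]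

end Vale.Agent.P254Z.Cert
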