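import Vale.Agent.P254Z.Cert.Glue

/-!
# P254: the level one certificates

After `s3 = be * s`, `st = be * s1` with `be = b'(z) ∈ (0, 1/2)` the form `Q1` is a polynomial in `be`
(and in `d = g - 1` for class A); its Bernstein coefficients are sums of squares.
-/

namespace Vale.Agent.P254Z.Cert

open Vale.Agent.P254.SF Vale.Agent.P254Z.Row

lemma q1pB (be a c e s s1 : ℝ) (hbel : 0 ≤ be) (hber : be ≤ (1 / 2)) :
    0 ≤ (1 - 3 / 20 - 1 / 500) * c ^ 2 + (7 / 10) * e ^ 2 + 2 * (7 / 10) * e * (be * c + be * s) -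
    (1 - (7 / 10)) * (be * (a + c) + be * s) ^ 2 + (1 / 4) * a * (be ^ 2 * (a + c) + be * s1) + (39
    / 1000) * a * (be * (a + c) + be * s) - (137 / 200) * (c + (53 / 500) * e + (-31 / 250) * (be *
    (a + c) + be * s)) ^ 2 + 6 * be * s ^ 2 + 8 * be * s1 ^ 2 := by
  obtain ⟨bel, ebel⟩ : ∃ w, w = be - 0 := ⟨_, rfl⟩
  obtain ⟨ber, eber⟩ : ∃ w, w = (1 / 2) - be := ⟨_, rfl⟩
  have pbel : 0 ≤ bel := by linarith
  have pber : 0 ≤ ber := by linarith
  refine le_of_le_of_eq (b :=
    bel ^ 0 * ber ^ 2 * ((34615167 / 12500000) * (-(3630500 / 34615167) * c + e) ^ 2 + (2689330808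
    / 4326895875) * (c) ^ 2) + bel ^ 1 * ber ^ 1 * (16 * ((1 / 64) * a + s1) ^ 2 + 12 * ((13 /
    4000) * a + (4247 / 300000) * c + (17725091 / 150000000) * e + s) ^ 2 + (10070371249041719 /
    1875000000000000) * ((25122668137500 / 10070371249041719) * a + (1531974419261500 /
    10070371249041719) * c + e) ^ 2 + (1909668816174956212 / 1258796406130214875) *
    ((64919145058335250 / 477417204043739053) * a + c) ^ 2 + (5607684375050766163 /
    122218804235197197568) * (a) ^ 2) + bel ^ 2 * ber ^ 0 * (16 * ((1 / 64) * a + s1) ^ 2 +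
    (146118343 / 12500000) * (-(3394157 / 146118343) * a - (1758157 / 146118343) * c + (17725091 /
    146118343) * e + s) ^ 2 + (758997119 / 292236686) * ((7444133251 / 379498559500) * a +
    (334502684 / 758997119) * c + e) ^ 2 + (16610444956 / 94874639875) * (-(257242459 /
    18983365664) * a + c) ^ 2 + (7382534756801 / 1186460354000000) * (a) ^ 2)) (by positivity) ?_
  rw [ebel, eber]; ring

lemma q1pC (be a c e s s1 : ℝ) (hbel : 0 ≤ be) (hber : be ≤ (1 / 2)) :
    0 ≤ (1 - 3 / 20 - 1 / 500) * c ^ 2 + (39 / 100) * e ^ 2 + 2 * (39 / 100) * e * (be * c + be *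
    s) - (1 - (39 / 100)) * (be * (a + c) + be * s) ^ 2 + (47 / 100) * a * (be ^ 2 * (a + c) + be *
    s1) + (63 / 500) * a * (be * (a + c) + be * s) - (697 / 1000) * (c + 0 * e + (-117 / 500) * (be
    * (a + c) + be * s)) ^ 2 + 6 * be * s ^ 2 + 8 * be * s1 ^ 2 := by
  obtain ⟨bel, ebel⟩ : ∃ w, w = be - 0 := ⟨_, rfl⟩
  obtain ⟨ber, eber⟩ : ∃ w, w = (1 / 2) - be := ⟨_, rfl⟩
  have pbel : 0 ≤ bel := by linarith
  have pber : 0 ≤ ber := by linarith
  refine le_of_le_of_eq (b :=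
    bel ^ 0 * ber ^ 2 * ((39 / 25) * (e) ^ 2 + (151 / 250) * (c) ^ 2) + bel ^ 1 * ber ^ 1 * (16 *
    ((47 / 1600) * a + s1) ^ 2 + 12 * ((21 / 2000) * a + (27183 / 1000000) * c + (13 / 200) * e +
    s) ^ 2 + (30693 / 10000) * (-(21 / 7870) * a + (972817 / 3935000) * c + e) ^ 2 + (409223753533
    / 245937500000) * ((110867564250 / 409223753533) * a + c) ^ 2 + (7511291921576003 /
    65475800565280000) * (a) ^ 2) + bel ^ 2 * ber ^ 0 * (16 * ((47 / 1600) * a + s1) ^ 2 +
    (2837958767 / 250000000) * (-(130541233 / 2837958767) * a - (80492233 / 2837958767) * c +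
    (195000000 / 2837958767) * e + s) ^ 2 + (106877891913 / 70948969175) * ((130541233 /
    5480917534) * a + (1459225500 / 2740458767) * c + e) ^ 2 + (58914667708 / 342557345875) *
    ((14021730245 / 471317341664) * a + c) ^ 2 + (41244241112991 / 1178293354160000) * (a) ^ 2)) (by positivity) ?_
  rw [ebel, eber]; ring

lemma q1pD (be a c e s s1 : ℝ) (hbel : 0 ≤ be) (hber : be ≤ (1 / 2)) :
    0 ≤ (1 - 3 / 20 - 1 / 500) * c ^ 2 + 0 * e ^ 2 + 2 * 0 * e * (be * c + be * s) - (1 - 0) * (be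
    * (a + c) + be * s) ^ 2 + (9 / 25) * a * (be ^ 2 * (a + c) + be * s1) + (87 / 200) * a * (be *
    (a + c) + be * s) - (371 / 500) * (c + 0 * e + (-319 / 1000) * (be * (a + c) + be * s)) ^ 2 + 6
    * be * s ^ 2 + 8 * be * s1 ^ 2 := by
  obtain ⟨bel, ebel⟩ : ∃ w, w = be - 0 := ⟨_, rfl⟩
  obtain ⟨ber, eber⟩ : ∃ w, w = (1 / 2) - be := ⟨_, rfl⟩
  have pbel : 0 ≤ bel := by linarith
  have pber : 0 ≤ ber := by linarith
  refine le_of_le_of_eq (b :=
    bel ^ 0 * ber ^ 2 * ((53 / 125) * (c) ^ 2) + bel ^ 1 * ber ^ 1 * (16 * ((9 / 400) * a + s1) ^ 2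
    + 12 * ((29 / 800) * a + (118349 / 3000000) * c + s) ^ 2 + (1332087514199 / 750000000000) *
    ((668426546250 / 1332087514199) * a + c) ^ 2 + (5313954765229881 / 13320875141990000) * (a) ^
    2) + bel ^ 2 * ber ^ 0 * (16 * ((9 / 400) * a + s1) ^ 2 + (5462246669 / 500000000) *
    (-(320253331 / 5462246669) * a - (301055331 / 5462246669) * c + s) ^ 2 + (178956591156 /
    682780833625) * (-(10201933465 / 119304394104) * a + c) ^ 2 + (2657596788937 / 24855082105000)
    * (a) ^ 2)) (by positivity) ?_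
  rw [ebel, eber]; ring

lemma q1pA (be d a c e s s1 : ℝ) (hbel : 0 ≤ be) (hber : be ≤ (1 / 2)) (hdl : (-1) ≤ d) (hdr : d ≤ (3 / 2)) :
    0 ≤ (1 - 3 / 20 - 1 / 500) * c ^ 2 + (1 + 4 / 25 * d) * e ^ 2 + 2 * e * (be * c + be * s) - 8 /
    25 * be * a * (be * c + be * s) - 4 / 25 * d * (be * c + be * s) ^ 2 + 4 / 25 * a * (be ^ 2 * c
    + be * s1) - 1 / 100 * (be * a ^ 2 + d * a * (be * c + be * s)) - 119 / 200 * (c + 233 / 1000 *
    e - 87 / 1000 * (be * a + d * (be * c + be * s))) ^ 2 + 6 * be * s ^ 2 + 8 * be * s1 ^ 2 + 1 /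
    125 * a ^ 2 := by
  obtain ⟨bel, ebel⟩ : ∃ w, w = be - 0 := ⟨_, rfl⟩
  obtain ⟨ber, eber⟩ : ∃ w, w = (1 / 2) - be := ⟨_, rfl⟩
  have pbel : 0 ≤ bel := by linarith
  have pber : 0 ≤ ber := by linarith
  obtain ⟨dl, edl⟩ : ∃ w, w = d - (-1) := ⟨_, rfl⟩
  obtain ⟨dr, edr⟩ : ∃ w, w = (3 / 2) - d := ⟨_, rfl⟩
  have pdl : 0 ≤ dl := by linarith
  have pdr : 0 ≤ dr := by linarith
  refine le_of_le_of_eq (b :=
    bel ^ 0 * ber ^ 2 * dl ^ 0 * dr ^ 2 * ((161539609 / 312500000) * (-(3961000 / 23077087) * c +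
    e) ^ 2 + (10578739552 / 72115896875) * (c) ^ 2 + (16 / 3125) * (a) ^ 2) + bel ^ 0 * ber ^ 2 *
    dl ^ 1 * dr ^ 1 * ((201539609 / 156250000) * (-(27727000 / 201539609) * c + e) ^ 2 +
    (188582353728 / 629811278125) * (c) ^ 2 + (32 / 3125) * (a) ^ 2) + bel ^ 0 * ber ^ 2 * dl ^ 2 *
    dr ^ 0 * ((241539609 / 312500000) * (-(27727000 / 241539609) * c + e) ^ 2 + (114531176864 /
    754811278125) * (c) ^ 2 + (16 / 3125) * (a) ^ 2) + bel ^ 1 * ber ^ 1 * dl ^ 0 * dr ^ 2 * ((64 /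
    25) * ((1 / 100) * a + s1) ^ 2 + (48 / 25) * ((1 / 1200) * a - (3451 / 400000) * c + (197587751
    / 1200000000) * e + s) ^ 2 + (736349203854761999 / 750000000000000000) * ((2697111049000000 /
    736349203854761999) * a + (106061327186103000 / 736349203854761999) * c + e) ^ 2 +
    (621751451117684694608 / 2301091262046131246875) * ((2539919598832812875 /
    38859465694855293413) * a + c) ^ 2 + (3409412079811689412428 / 607179151482113959578125) * (a)
    ^ 2) + bel ^ 1 * ber ^ 1 * dl ^ 1 * dr ^ 1 * ((128 / 25) * ((1 / 100) * a + s1) ^ 2 + (96 / 25)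
    * (-(1 / 4800) * a + (3451 / 1600000) * c + (802412249 / 4800000000) * e + s) ^ 2 +
    (14834376553854761999 / 6000000000000000000) * ((47117593049000000 / 14834376553854761999) * a
    + (1713837821186103000 / 14834376553854761999) * c + e) ^ 2 + (29262038973260969389216 /
    46357426730796131246875) * ((45523086404668748500 / 914438717914405293413) * a + c) ^ 2 +
    (171150359879199888024856 / 14288104967412582709578125) * (a) ^ 2) + bel ^ 1 * ber ^ 1 * dl ^ 2
    * dr ^ 0 * ((64 / 25) * ((1 / 100) * a + s1) ^ 2 + (48 / 25) * (-(1 / 800) * a + (10353 /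
    800000) * c + (407236747 / 2400000000) * e + s) ^ 2 + (4471718724692857991 /
    3000000000000000000) * ((12800505441000000 / 4471718724692857991) * a + (432361426674927000 /
    4471718724692857991) * c + e) ^ 2 + (5020596056569562251472 / 13974121014665181221875) *
    ((12038100307003122750 / 313787253535597640717) * a + c) ^ 2 + (30594280110268786511852 /
    4902925836493713136203125) * (a) ^ 2) + bel ^ 2 * ber ^ 0 * dl ^ 0 * dr ^ 2 * ((64 / 25) * ((1
    / 100) * a + s1) ^ 2 + (2431099289 / 1250000000) * (-(29099289 / 2431099289) * a + (10393289 /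
    2431099289) * c + (395175502 / 2431099289) * e + s) ^ 2 + (141471163696 / 303887411125) *
    ((5807039949 / 353677909240) * a + (4293595930 / 8841947731) * c + e) ^ 2 + (1211892097776 /
    27631086659375) * ((17084097985 / 302973024444) * a + c) ^ 2 + (1892760441499 /
    4733953506937500) * (a) ^ 2) + bel ^ 2 * ber ^ 0 * dl ^ 1 * dr ^ 1 * ((128 / 25) * ((1 / 100) *
    a + s1) ^ 2 + (4786702133 / 1250000000) * (-(130900711 / 9573404266) * a - (2944867 /
    4786702133) * c + (802412249 / 4786702133) * e + s) ^ 2 + (282952607717161999 /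
    239335106650000000) * ((7896402935129039 / 565905215434323998) * a + (111260172034103000 /
    282952607717161999) * c + e) ^ 2 + (129956726041117488608 / 884226899116131246875) *
    (-(8263343246400005 / 8122295377569843038) * a + c) ^ 2 + (59685093800172794788 /
    63455432637264398734375) * (a) ^ 2) + bel ^ 2 * ber ^ 0 * dl ^ 2 * dr ^ 0 * ((64 / 25) * ((1 /
    100) * a + s1) ^ 2 + (9399893601 / 5000000000) * (-(20772038 / 1342841943) * a - (25290133 /
    3133297867) * c + (1628946988 / 9399893601) * e + s) ^ 2 + (841841942768 / 1174986700125) *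
    ((26140932041 / 2104604856920) * a + (17602224420 / 52615121423) * c + e) ^ 2 + (15008831911408
    / 164422254446875) * (-(30088827080 / 938051994463) * a + c) ^ 2 + (16951559263147 /
    58628249653937500) * (a) ^ 2)) (by positivity) ?_
  rw [ebel, eber, edl, edr]; ring

lemma exists_mul (z x : ℝ) : ∃ s, x = b1 z * s := ⟨x / b1 z, by
  have := (b1_pos z).ne'; field_simp⟩

lemma div_mul_sq (z k s : ℝ) : k / b1 z * (b1 z * s) ^ 2 = k * b1 z * s ^ 2 := by
  have := (b1_pos z).ne'; field_simp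

theorem stmtQ1B : StmtQ1B := by
  intro z a c e s3 st
  obtain ⟨s, rfl⟩ := exists_mul z s3
  obtain ⟨s1, rfl⟩ := exists_mul z st
  have := q1pB (b1 z) a c e s s1 (b1_pos z).le (b1_lt z).le
  simp only [Q1, bud, muB, div_mul_sq]
  linarith

theorem stmtQ1C : StmtQ1C := by
  intro z a c e s3 st
  obtain ⟨s, rfl⟩ := exists_mul z s3
  obtain ⟨s1, rfl⟩ := exists_mul z st
  have := q1pC (b1 z) a c e s s1 (b1_pos z).le (b1_lt z).le
  simp only [Q1, bud, muC, div_mul_sq]
  linarith

theorem stmtQ1D : StmtQ1D := by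
  intro z a c e s3 st
  obtain ⟨s, rfl⟩ := exists_mul z s3
  obtain ⟨s1, rfl⟩ := exists_mul z st
  have := q1pD (b1 z) a c e s s1 (b1_pos z).le (b1_lt z).le
  simp only [Q1, bud, muD, div_mul_sq]
  linarith

theorem stmtQ1A : StmtQ1A := by
  intro g h0 h1 z a c e s3 st
  obtain ⟨s, rfl⟩ := exists_mul z s3
  obtain ⟨s1, rfl⟩ := exists_mul z st
  obtain ⟨d, rfl⟩ : ∃ d, g = d + 1 := ⟨g - 1, by ring⟩
  have := q1pA (b1 z) d (d * a) c ((1 - 4 / 25 * d) * e) s s1 (b1_pos z).le (b1_lt z).le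
    (by linarith) (by linarith)
  have h2 : 0 ≤ (1 - 4 / 25 * d) * (4 / 25 * d * e) ^ 2 := mul_nonneg (by linarith) (sq_nonneg _)
  simp only [Q1, bud, muA, div_mul_sq, add_sub_cancel_right]
  linarith

end Vale.Agent.P254Z.Cert
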